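import Vale.Agent.P264.Setup

/-!
Frozen statements of the inner module.
-/

namespace Vale.Agent.P264.Inner

open Set

/-- The two time derivatives are controlled by their initial values and the norm of the
potential. The smallness `η₀` and the constant may depend on `R`. -/
def InnerEnergyTarget : Prop :=
  ∀ (σ : Shrinker) (M : ℝ), ∃ R₀ : ℝ, 0 < R₀ ∧ ∀ R : ℝ, R₀ ≤ R →
    ∃ η₀ C L₀ : ℝ, 0 < η₀ ∧ 0 < C ∧ ∀ L : ℝ, L₀ ≤ L →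
      ∀ (φ₀ : ℝ → ℝ) (φ w : ℝ → ℝ → ℝ), IsFlow L 1 φ₀ φ → RelPot σ L φ w →
        ∀ s₁ B : ℝ, 0 ≤ s₁ →
          (∀ s ∈ Icc 0 s₁, Boot σ L R η₀ M φ w s ∧ normN L w s ≤ B) →
          normE R w s₁ ≤ C * (normE R w 0 + B + 1 / L ^ 2)

/-- Static consequences on `(0, 8 R)` of small norms. -/
def InnerSupTarget : Prop :=
  ∀ (σ : Shrinker) (M : ℝ), ∃ R₀ : ℝ, 0 < R₀ ∧ ∀ R : ℝ, R₀ ≤ R →
    ∃ η₀ C L₀ : ℝ, 0 < η₀ ∧ 0 < C ∧ ∀ L : ℝ, L₀ ≤ L →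
      ∀ (φ₀ : ℝ → ℝ) (φ w : ℝ → ℝ → ℝ), IsFlow L 1 φ₀ φ → RelPot σ L φ w →
        ∀ s : ℝ, 0 ≤ s → Boot σ L R η₀ M φ w s →
          let e := Real.sqrt (normN L w s + normE R w s)
          ∀ y ∈ Ioo 0 (8 * R),
            |rprof φ s y - y * σ.q y| ≤ C * e * (y * Real.sqrt y) ∧
            |deriv (rprof φ s) y - deriv (fun z => z * σ.q z) y| ≤ C * e * Real.sqrt y ∧
            |scal (rprof φ s) y - σ.S y| ≤ C * e / Real.sqrt y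

end Vale.Agent.P264.Inner
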