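import Vale.Agent.P264.Inner.Bridge

/-!
The two inner targets.
-/

namespace Vale.Agent.P264.Inner

open Set Filter MeasureTheory
open scoped ContDiff Topology

theorem innerEnergy (hCo : Energy.CoerciveTarget) (hFo : Energy.ForcingTarget)
    (hIn : Energy.InterpTarget) (hSn : Dict.SnapEqnTarget) (hRef : Middle.RefTarget) :
    InnerEnergyTarget := by
  intro σ M
  obtain ⟨δ₀, hδ₀, hhier⟩ := hierarchy hCo hFo hIn
  obtain ⟨Lr, Cr, -, -, hr⟩ := hRef σ
  refine ⟨1, one_pos, fun R hR => ?_⟩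
  obtain ⟨δ, M', G, m, hδ, hbox⟩ := exists_box σ R M δ₀ hR hδ₀
  obtain ⟨A, ε, d, K, η, hA, hε, hε1, hd, hK, hη, hh⟩ := hhier σ R M δ M' G m hδ hbox
  refine ⟨η, (A + 1 + K / d) / ε, max Lr (257 * R), hη, by positivity,
    fun L hL φ₀ φ w hflow hrel s₁ B hs₁ hboot => ?_⟩
  have hR0 : 0 < R := by linarith
  have hS : Setup σ L R φ₀ φ w :=
    ⟨hR0, by linarith [(le_max_right Lr (257 * R)).trans hL], hflow, hrel,
      fun t ht x hx hx4 => ((hr L ((le_max_left Lr (257 * R)).trans hL)).2.2 t ht x hx).2 hx4⟩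
  have hb : 0 < 64 * R := hS.b_pos
  obtain ⟨f1, f2, -⟩ := hS.fld_Z
  have k0 : ContDiff ℝ ∞ (th0 R) := cut_smooth _
  have k1 : ContDiff ℝ ∞ (th1 R) := cut_smooth _
  have k2 : ContDiff ℝ ∞ (th2 R) := cut_smooth _
  obtain ⟨z0, z1, z2⟩ := th_zero hR0
  set Lam := fun s => A * wsq 5 8 (th0 R) (64 * R) (snap w s)
    + wsq 5 8 (th1 R) (64 * R) (Z1f R w s) + ε * wsq 5 8 (th2 R) (64 * R) (Z2f R w s) with hLam
  have hshrink : ∀ s, 0 ≤ s →
      wsq 5 8 (th1 R) (64 * R) (Z1f R w s) + wsq 5 8 (th2 R) (64 * R) (Z2f R w s)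
        = normE R w s := fun s hs => by
    rw [← (hS.size_le hs).2,
      wsq_shrink (Y₁ := 32 * R) (by positivity) (by linarith) (by norm_num) k1.continuous
        (f1.slice hs).continuousOn z1,
      wsq_shrink (Y₁ := 16 * R) (by positivity) (by linarith) (by norm_num) k2.continuous
        (f2.slice hs).continuousOn z2]
  have hnn : ∀ s, 0 ≤ wsq 5 8 (th0 R) (64 * R) (snap w s)
      ∧ 0 ≤ wsq 5 8 (th1 R) (64 * R) (Z1f R w s) ∧ 0 ≤ wsq 5 8 (th2 R) (64 * R) (Z2f R w s) :=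
    fun s => ⟨wsq_nonneg hb.le (cut_nonneg _), wsq_nonneg hb.le (cut_nonneg _),
      wsq_nonneg hb.le (cut_nonneg _)⟩
  have hNV : ∀ s ∈ Icc 0 s₁, wsq 5 0 (fun _ => 1) (64 * R) (snap w s) ≤ B :=
    fun s hs => (hS.size_le hs.1).1.trans (hboot s hs).2
  have hB0 : 0 ≤ B := (wsq_nonneg hb.le (p := 0) (κ := fun _ => (1:ℝ)) (fun _ => zero_le_one)).trans
    (hNV 0 (left_mem_Icc.2 hs₁))
  have hg : Lam s₁ ≤ Lam 0 + K * B / d := by
    refine gronwall_damped hd (mul_nonneg hK hB0) hs₁ ?_ ?_ (fun s hs => ?_)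
    · obtain ⟨a, b, c⟩ := hnn 0
      show 0 ≤ _ + _
      positivity
    · exact ((((continuousOn_wsq hb hS.fld_snap k0).const_smul A).add
        (continuousOn_wsq hb f1 k1)).add ((continuousOn_wsq hb f2 k2).const_smul ε)).mono
        (fun r hr => hr.1)
    · refine ⟨_, (((hasDerivAt_wsq hb hS.fld_snap k0 hs.1).const_mul A).fun_add
        (hasDerivAt_wsq hb f1 k1 hs.1)).fun_add
        ((hasDerivAt_wsq hb f2 k2 hs.1).const_mul ε), ?_⟩
      obtain ⟨hboot1, -⟩ := hboot s (Ioo_subset_Icc_self hs)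
      have hsl := hS.slice hSn hs.1.le hboot1
      have hsize : size R (snap w s) (Z1f R w s) (Z2f R w s) ≤ η := by
        refine le_trans ?_ hboot1.small
        obtain ⟨a, b⟩ := hS.size_le hs.1.le
        rw [size, add_assoc, b]
        linarith
      have h := hh _ _ _ _ (Z3f R w s) hsl (hS.fld_Z.2.2.slice hs.1.le).continuousOn
        (fun y hy => hS.eq3 hSn hs.1 hy) hsize
      have hV := mul_le_mul_of_nonneg_left (hNV s (Ioo_subset_Icc_self hs)) hK
      simp only [hLam, Z1f, Z2f, Z3f] at h ⊢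
      linarith
  obtain ⟨a0, b0, c0⟩ := hnn 0
  obtain ⟨a1, b1, c1⟩ := hnn s₁
  have hN0 : wsq 5 8 (th0 R) (64 * R) (snap w 0) ≤ B := by
    refine le_trans ?_ (hNV 0 (left_mem_Icc.2 hs₁))
    exact wsq_le_of_le hb.le le_rfl k0.continuous continuous_const (fun _ => zero_le_one)
      (hS.fld_snap.slice le_rfl).continuousOn
      (fun y _ => by rw [pow_zero]; exact pow_le_one₀ (cut_nonneg _ _) (cut_le_one _ _))
  have hlow : ε * normE R w s₁ ≤ Lam s₁ := by
    rw [← hshrink s₁ hs₁]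
    have h1 := mul_le_mul_of_nonneg_right hε1 b1
    have h2 := mul_nonneg hA.le a1
    simp only [hLam]
    linarith
  have hhigh : Lam 0 ≤ A * B + normE R w 0 := by
    rw [← hshrink 0 le_rfl]
    have h1 := mul_le_mul_of_nonneg_right hε1 c0
    have h2 := mul_le_mul_of_nonneg_left hN0 hA.le
    simp only [hLam]
    linarith
  have hE0 : 0 ≤ normE R w 0 := by
    rw [← hshrink 0 le_rfl]
    linarith
  rw [div_mul_eq_mul_div, le_div_iff₀ hε]
  have hL0 : 0 ≤ 1 / L ^ 2 := by positivity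
  have hKd : 0 ≤ K / d := div_nonneg hK hd.le
  have e : K * B / d = K / d * B := by ring
  calc normE R w s₁ * ε = ε * normE R w s₁ := mul_comm _ _
    _ ≤ A * B + normE R w 0 + K / d * B := by linarith
    _ ≤ (A + 1 + K / d) * (normE R w 0 + B + 1 / L ^ 2) := by
        have := mul_nonneg hA.le hE0
        have := mul_nonneg hKd hE0
        have := mul_nonneg (add_nonneg (add_nonneg hA.le zero_le_one) hKd) hL0
        linarith

theorem innerSup (hCo : Energy.CoerciveTarget) (hFo : Energy.ForcingTarget)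
    (hIn : Energy.InterpTarget) (hSn : Dict.SnapEqnTarget) (hRef : Middle.RefTarget) :
    InnerSupTarget := by
  intro σ M
  obtain ⟨δ₀, hδ₀, hsup⟩ := slice_sup hCo hFo hIn
  obtain ⟨Lr, Cr, -, -, hr⟩ := hRef σ
  refine ⟨1, one_pos, fun R hR => ?_⟩
  obtain ⟨δ, M', G, m, hδ, hbox⟩ := exists_box σ R M δ₀ hR hδ₀
  obtain ⟨C, hC, hs'⟩ := hsup σ R M δ M' G m hδ hbox
  refine ⟨1, C, max Lr (257 * R), one_pos, hC, fun L hL φ₀ φ w hflow hrel s hs hboot => ?_⟩
  intro e y hy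
  have hR0 : 0 < R := by linarith
  have hS : Setup σ L R φ₀ φ w :=
    ⟨hR0, by linarith [(le_max_right Lr (257 * R)).trans hL], hflow, hrel,
      fun t ht x hx hx4 => ((hr L ((le_max_left Lr (257 * R)).trans hL)).2.2 t ht x hx).2 hx4⟩
  have hsl := hS.slice hSn hs hboot
  obtain ⟨hNV, hE⟩ := hS.size_le hs
  have hsz : size R (snap w s) (Z1f R w s) (Z2f R w s) ≤ normN L w s + normE R w s := by
    rw [size, add_assoc, hE]
    linarith
  have hsz0 : 0 ≤ size R (snap w s) (Z1f R w s) (Z2f R w s) := by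
    obtain ⟨a, b, c⟩ := size_nonneg hR0.le (snap w s) (Z1f R w s) (Z2f R w s)
    exact add_nonneg (add_nonneg a b) c
  have he : 0 ≤ e := Real.sqrt_nonneg _
  have he2 : e ^ 2 = normN L w s + normE R w s := Real.sq_sqrt (hsz0.trans hsz)
  have key : ∀ t : ℝ, 0 < t →
      |y * σ.q y - rprof φ s y| ≤ C * (e + t) * (y * Real.sqrt y) ∧
      |d1 (8 * R) (gap σ φ s) y| ≤ C * (e + t) * Real.sqrt y ∧
      |dst (gap σ φ s) y| ≤ C * (e + t) / Real.sqrt y := fun t ht =>
    (hs' _ _ _ _ hsl (e + t) (by linarith) (by nlinarith)).2 y hy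
  have hy0 := hy.1
  have hsy : 0 < Real.sqrt y := Real.sqrt_pos.2 hy0
  have lim : ∀ x k : ℝ, 0 < k → (∀ t : ℝ, 0 < t → x ≤ C * (e + t) * k) → x ≤ C * e * k :=
    fun x k hk h => le_of_forall_pos_le_add (fun r hr0 => by
      refine (h (r / (C * k)) (div_pos hr0 (mul_pos hC hk))).trans_eq ?_
      field_simp)
  have hsub : Icc 0 (8 * R) ⊆ Icc 0 (64 * R) := Icc_subset_Icc le_rfl (by linarith)
  have sΦ := (hS.fld_prof.slice hs).mono hsub
  have sF : ContDiffOn ℝ ∞ (fun z => z * σ.q z) (Icc 0 (8 * R)) := shrinker_smooth σ _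
  refine ⟨?_, ?_, ?_⟩
  · rw [abs_sub_comm]
    exact lim _ _ (mul_pos hy0 hsy) (fun t ht => (key t ht).1)
  · have hd : deriv (rprof φ s) y - deriv (fun z => z * σ.q z) y
        = -d1 (8 * R) (gap σ φ s) y := by
      have h1 := ((hasDerivAt_d1 sF hy).fun_sub (hasDerivAt_d1 sΦ hy)).deriv
      have h2 := deriv_d1 (U := gap σ φ s) ((hS.fld_gap.slice hs).mono hsub) hy
      rw [deriv_d1 sF hy, deriv_d1 sΦ hy, ← h2]
      unfold gap
      rw [h1]
      ring
    rw [hd, abs_neg]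
    exact lim _ _ hsy (fun t ht => (key t ht).2.1)
  · have hd : scal (rprof φ s) y - σ.S y = dst (gap σ φ s) y := by
      unfold gap
      rw [dst_sub (by positivity) sF sΦ hy, σ.S_eq y hy0]
      simp only [scal, dst]
      ring
    rw [hd, div_eq_mul_inv]
    exact lim _ _ (inv_pos.2 hsy) (fun t ht => by
      rw [← div_eq_mul_inv]; exact (key t ht).2.2)

end Vale.Agent.P264.Inner
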