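import Vale.Agent.P264.Inner.Targets
import Vale.Agent.P264.Energy.Targets

/-!
Calculus helpers for the inner module: derivatives up to the boundary, `dst`, cutoffs, integrals.
-/

namespace Vale.Agent.P264.Inner

open Set Filter MeasureTheory
open scoped ContDiff Topology

/-- Derivative up to the boundary of `[0, b]`. -/
noncomputable def d1 (b : ℝ) (U : ℝ → ℝ) : ℝ → ℝ := derivWithin U (Icc 0 b)

/-- Second derivative up to the boundary of `[0, b]`. -/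
noncomputable def d2 (b : ℝ) (U : ℝ → ℝ) : ℝ → ℝ := d1 b (d1 b U)

variable {b : ℝ} {U F G : ℝ → ℝ}

theorem smooth_d1 (hb : 0 < b) (hU : ContDiffOn ℝ ∞ U (Icc 0 b)) :
    ContDiffOn ℝ ∞ (d1 b U) (Icc 0 b) :=
  hU.derivWithin (uniqueDiffOn_Icc hb) (le_refl _)

theorem smooth_d2 (hb : 0 < b) (hU : ContDiffOn ℝ ∞ U (Icc 0 b)) :
    ContDiffOn ℝ ∞ (d2 b U) (Icc 0 b) :=
  smooth_d1 hb (smooth_d1 hb hU)

theorem hasDerivAt_d1 (hU : ContDiffOn ℝ ∞ U (Icc 0 b)) {y : ℝ} (hy : y ∈ Ioo 0 b) :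
    HasDerivAt U (d1 b U y) y :=
  ((hU y (Ioo_subset_Icc_self hy)).differentiableWithinAt (by simp)).hasDerivWithinAt.hasDerivAt
    (Icc_mem_nhds hy.1 hy.2)

theorem deriv_d1 (hU : ContDiffOn ℝ ∞ U (Icc 0 b)) {y : ℝ} (hy : y ∈ Ioo 0 b) :
    deriv U y = d1 b U y :=
  (hasDerivAt_d1 hU hy).deriv

theorem deriv_d2 (hb : 0 < b) (hU : ContDiffOn ℝ ∞ U (Icc 0 b)) {y : ℝ} (hy : y ∈ Ioo 0 b) :
    deriv (deriv U) y = d2 b U y := by
  have h : deriv U =ᶠ[𝓝 y] d1 b U :=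
    eventually_of_mem (isOpen_Ioo.mem_nhds hy) (fun z hz => deriv_d1 hU hz)
  rw [h.deriv_eq]
  exact deriv_d1 (smooth_d1 hb hU) hy

/-- Continuous form of the transport part. -/
noncomputable def cdrift (b : ℝ) (U : ℝ → ℝ) (y : ℝ) : ℝ := U y / 2 - y * d1 b U y / 2

theorem drift_eq (hU : ContDiffOn ℝ ∞ U (Icc 0 b)) {y : ℝ} (hy : y ∈ Ioo 0 b) :
    drift U y = cdrift b U y := by
  simp only [drift, cdrift, deriv_d1 hU hy]

theorem smooth_cdrift (hb : 0 < b) (hU : ContDiffOn ℝ ∞ U (Icc 0 b)) :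
    ContDiffOn ℝ ∞ (cdrift b U) (Icc 0 b) :=
  (hU.div_const 2).sub ((contDiffOn_id.mul (smooth_d1 hb hU)).div_const 2)

/-- First derivative of `y^7 F`. -/
noncomputable def wronk (b : ℝ) (F : ℝ → ℝ) (y : ℝ) : ℝ := 7 * y ^ 6 * F y + y ^ 7 * d1 b F y

/-- Second derivative of `y^7 F`. -/
noncomputable def wronk2 (b : ℝ) (F : ℝ → ℝ) (y : ℝ) : ℝ :=
  42 * y ^ 5 * F y + 14 * y ^ 6 * d1 b F y + y ^ 7 * d2 b F y

theorem hasDerivAt_wronk0 (hF : ContDiffOn ℝ ∞ F (Icc 0 b)) {y : ℝ} (hy : y ∈ Ioo 0 b) :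
    HasDerivAt (fun z => z ^ 7 * F z) (wronk b F y) y := by
  have h := (hasDerivAt_pow 7 y).mul (hasDerivAt_d1 hF hy)
  norm_num at h
  exact h

theorem hasDerivAt_wronk (hb : 0 < b) (hF : ContDiffOn ℝ ∞ F (Icc 0 b)) {y : ℝ}
    (hy : y ∈ Ioo 0 b) : HasDerivAt (wronk b F) (wronk2 b F y) y := by
  have h1 := ((hasDerivAt_pow 6 y).const_mul 7).mul (hasDerivAt_d1 hF hy)
  have h2 := (hasDerivAt_pow 7 y).mul (hasDerivAt_d1 (smooth_d1 hb hF) hy)
  refine ((h1.add h2).congr_deriv ?_)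
  simp only [wronk2, d2]
  push_cast
  ring

theorem deriv_wronk2 (hb : 0 < b) (hF : ContDiffOn ℝ ∞ F (Icc 0 b)) {y : ℝ}
    (hy : y ∈ Ioo 0 b) :
    deriv (deriv (fun z => z ^ 7 * F z)) y = wronk2 b F y := by
  have h : deriv (fun z => z ^ 7 * F z) =ᶠ[𝓝 y] wronk b F :=
    eventually_of_mem (isOpen_Ioo.mem_nhds hy) (fun z hz => (hasDerivAt_wronk0 hF hz).deriv)
  rw [h.deriv_eq]
  exact (hasDerivAt_wronk hb hF hy).deriv

theorem dst_formula (hb : 0 < b) (hF : ContDiffOn ℝ ∞ F (Icc 0 b)) {y : ℝ} (hy : y ∈ Ioo 0 b) :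
    dst F y = d2 b F y + 14 * d1 b F y / y + 42 * F y / y ^ 2 := by
  have := hy.1.ne'
  rw [dst, deriv_wronk2 hb hF hy, wronk2]
  field_simp
  ring

theorem dst_congr_Ioo (h : ∀ z ∈ Ioo 0 b, F z = G z) {y : ℝ} (hy : y ∈ Ioo 0 b) :
    dst F y = dst G y := by
  have he : (fun z => z ^ 7 * F z) =ᶠ[𝓝 y] fun z => z ^ 7 * G z :=
    eventually_of_mem (isOpen_Ioo.mem_nhds hy) (fun z hz => by simp only [h z hz])
  rw [dst, dst, (he.deriv).deriv_eq]

theorem dst_sub (hb : 0 < b) (hF : ContDiffOn ℝ ∞ F (Icc 0 b)) (hG : ContDiffOn ℝ ∞ G (Icc 0 b))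
    {y : ℝ} (hy : y ∈ Ioo 0 b) : dst (fun z => F z - G z) y = dst F y - dst G y := by
  have h : ∀ H : ℝ → ℝ, ContDiffOn ℝ ∞ H (Icc 0 b) → ∀ z ∈ Ioo 0 b,
      HasDerivAt (fun x => x ^ 7 * H x) (wronk b H z) z :=
    fun H hH z hz => hasDerivAt_wronk0 hH hz
  have he : deriv (fun z => z ^ 7 * (F z - G z)) =ᶠ[𝓝 y] fun z => wronk b F z - wronk b G z :=
    eventually_of_mem (isOpen_Ioo.mem_nhds hy) (fun z hz => by
      have := ((h F hF z hz).sub (h G hG z hz)).deriv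
      simp only [mul_sub]
      exact this)
  rw [dst, dst, dst, he.deriv_eq, deriv_wronk2 hb hF hy, deriv_wronk2 hb hG hy,
    ((hasDerivAt_wronk hb hF hy).fun_sub (hasDerivAt_wronk hb hG hy)).deriv]
  ring

theorem dst_neg (y : ℝ) (F : ℝ → ℝ) : dst (fun z => -F z) y = -dst F y := by
  have h1 : (fun z : ℝ => z ^ 7 * -F z) = fun z => -(z ^ 7 * F z) := funext fun z => by ring
  have h2 : deriv (fun z : ℝ => -(z ^ 7 * F z)) = fun z => -deriv (fun z => z ^ 7 * F z) z :=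
    funext fun z => by rw [deriv.fun_neg]
  rw [dst, dst, h1, h2, deriv.fun_neg, neg_div]

theorem rho_nonneg (j : ℕ) {y : ℝ} (hy : 0 ≤ y) : 0 ≤ rho j y := by
  rw [rho]
  positivity

theorem continuous_rho (j : ℕ) : Continuous (rho j) := by
  have h : ∀ y : ℝ, (1 + y ^ 2) ^ j ≠ 0 := fun y => pow_ne_zero _ (by positivity)
  exact (continuous_pow 3).div (by fun_prop) h

theorem pow_three_le_rho {y B : ℝ} (hy : 0 ≤ y) (hyB : y ≤ B) :
    y ^ 3 ≤ (1 + B ^ 2) ^ 5 * rho 5 y := by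
  rw [rho, mul_div_assoc', le_div_iff₀ (by positivity), mul_comm ((1 + B ^ 2) ^ 5)]
  gcongr

theorem rho_le_pow_three {y : ℝ} (hy : 0 ≤ y) : rho 5 y ≤ y ^ 3 := by
  rw [rho]
  exact div_le_self (pow_nonneg hy 3) (one_le_pow₀ (by nlinarith))

/-- The weighted `dst` is continuous up to the origin. -/
noncomputable def rdst (b : ℝ) (F : ℝ → ℝ) (y : ℝ) : ℝ :=
  (y ^ 3 * d2 b F y + 14 * y ^ 2 * d1 b F y + 42 * y * F y) / (1 + y ^ 2) ^ 5

theorem rho_dst (hb : 0 < b) (hF : ContDiffOn ℝ ∞ F (Icc 0 b)) {y : ℝ} (hy : y ∈ Ioo 0 b) :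
    rho 5 y * dst F y = rdst b F y := by
  have := hy.1.ne'
  have : (1 + y ^ 2) ^ 5 ≠ 0 := by positivity
  rw [dst_formula hb hF hy, rho, rdst]
  field_simp

theorem continuousOn_rdst (hb : 0 < b) (hF : ContDiffOn ℝ ∞ F (Icc 0 b)) :
    ContinuousOn (rdst b F) (Icc 0 b) := by
  have := hF.continuousOn
  have := (smooth_d1 hb hF).continuousOn
  have := (smooth_d2 hb hF).continuousOn
  refine ContinuousOn.div (by fun_prop) (by fun_prop) (fun y _ => ?_)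
  positivity

/-- Integrable on `[0, Y]`. -/
def II (f : ℝ → ℝ) (Y : ℝ) : Prop := IntervalIntegrable f volume 0 Y

theorem II.of_eqOn {f g : ℝ → ℝ} {Y : ℝ} (hY : 0 ≤ Y) (hg : ContinuousOn g (Icc 0 Y))
    (h : ∀ y ∈ Ioo 0 Y, f y = g y) : II f Y := by
  have hi : IntervalIntegrable g volume 0 Y := hg.intervalIntegrable_of_Icc hY
  refine hi.congr_uIoo ?_
  intro y hy
  rw [uIoo_of_le hY] at hy
  exact (h y hy).symm

theorem II.of_cont {f : ℝ → ℝ} {Y : ℝ} (hY : 0 ≤ Y) (hf : ContinuousOn f (Icc 0 Y)) : II f Y :=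
  hf.intervalIntegrable_of_Icc hY

theorem integral_le {f g : ℝ → ℝ} {Y : ℝ} (hY : 0 ≤ Y) (hf : II f Y) (hg : II g Y)
    (h : ∀ y ∈ Ioo 0 Y, f y ≤ g y) :
    (∫ y in (0:ℝ)..Y, f y) ≤ ∫ y in (0:ℝ)..Y, g y :=
  intervalIntegral.integral_mono_on_of_le_Ioo hY hf hg h

theorem integral_nonneg' {f : ℝ → ℝ} {Y : ℝ} (hY : 0 ≤ Y) (h : ∀ y ∈ Ioo 0 Y, 0 ≤ f y) :
    0 ≤ ∫ y in (0:ℝ)..Y, f y := by
  rw [intervalIntegral.integral_congr_Ioo_of_le hY (g := fun y => max (f y) 0)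
    (fun y hy => (max_eq_left (h y hy)).symm)]
  exact intervalIntegral.integral_nonneg hY (fun y _ => le_max_right _ _)

/-- A cutoff equal to `1` on `[0, k]` and `0` beyond `2 k`. -/
noncomputable def cut (k y : ℝ) : ℝ := Real.smoothTransition (2 - y / k)

theorem th1_eq (R : ℝ) : th1 R = cut (16 * R) := rfl

theorem th2_eq (R : ℝ) : th2 R = cut (8 * R) := rfl

theorem cut_smooth (k : ℝ) : ContDiff ℝ ∞ (cut k) :=
  Real.smoothTransition.contDiff.comp (contDiff_const.sub (contDiff_id.div_const k))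

theorem cut_nonneg (k y : ℝ) : 0 ≤ cut k y := Real.smoothTransition.nonneg _

theorem cut_le_one (k y : ℝ) : cut k y ≤ 1 := Real.smoothTransition.le_one _

theorem cut_one {k y : ℝ} (hk : 0 < k) (hy : y ≤ k) : cut k y = 1 :=
  Real.smoothTransition.one_of_one_le (by
    have := (div_le_one hk).2 hy
    linarith)

theorem cut_zero {k y : ℝ} (hk : 0 < k) (hy : 2 * k ≤ y) : cut k y = 0 :=
  Real.smoothTransition.zero_of_nonpos (by
    have := (le_div_iff₀ hk).2 hy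
    linarith)

theorem cut_anti {k : ℝ} (hk : 0 < k) : Antitone (cut k) := fun x y hxy =>
  Real.smoothTransition.monotone (by
    have := div_le_div_of_nonneg_right hxy hk.le
    linarith)

theorem cut_Cut {k : ℝ} (hk : 0 < k) (B : ℝ) :
    ∃ G : ℝ, 0 ≤ G ∧ ∀ Y δ : ℝ, Y ≤ B → δ ≤ k → Cut Y G δ (cut k) := by
  have c1 : Continuous (deriv (cut k)) := (cut_smooth k).continuous_deriv (by simp)
  have c2 : Continuous (deriv (deriv (cut k))) :=
    ((contDiff_infty_iff_deriv.1 (cut_smooth k)).2).continuous_deriv (by simp)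
  obtain ⟨G1, hG1⟩ := (isCompact_Icc (a := (0:ℝ)) (b := B)).exists_bound_of_continuousOn
    (f := fun y => deriv (cut k) y * (1 + y)) (by fun_prop)
  obtain ⟨G2, hG2⟩ := (isCompact_Icc (a := (0:ℝ)) (b := B)).exists_bound_of_continuousOn
    (f := fun y => deriv (deriv (cut k)) y * (1 + y) ^ 2) (by fun_prop)
  refine ⟨max (max G1 G2) 0, le_max_right _ _, fun Y δ hY hδ => ⟨cut_smooth k, cut_nonneg k,
    cut_le_one k, fun y hy => ?_, fun y hy => ?_, fun y hy => ?_⟩⟩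
  · rw [cut_one hk (hy.trans hδ), cut_one hk hk.le]
  · have h := hG1 y ⟨hy.1, hy.2.trans hY⟩
    rw [Real.norm_eq_abs, abs_mul, abs_of_pos (by linarith [hy.1] : (0:ℝ) < 1 + y)] at h
    rw [le_div_iff₀ (by linarith [hy.1])]
    exact h.trans ((le_max_left _ _).trans (le_max_left _ _))
  · have h := hG2 y ⟨hy.1, hy.2.trans hY⟩
    have hp : (0:ℝ) < (1 + y) ^ 2 := pow_pos (by linarith [hy.1]) 2
    rw [Real.norm_eq_abs, abs_mul, abs_of_pos hp] at h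
    rw [le_div_iff₀ hp]
    exact h.trans ((le_max_right _ _).trans (le_max_left _ _))

end Vale.Agent.P264.Inner
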