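import Mathlib

/-!
Smooth functions of `(s, y)` on the half strip `s ≥ 0`, `0 ≤ y ≤ b`: partial derivatives up to the
boundary, their commutation inside, and differentiation of integrals in `y`.
-/

namespace Vale.Agent.P264.Inner

open Set Filter MeasureTheory
open scoped ContDiff Topology

/-- The half strip. -/
def strip (b : ℝ) : Set (ℝ × ℝ) := Ici 0 ×ˢ Icc 0 b

/-- Smooth on the half strip. -/
def Fld (b : ℝ) (u : ℝ → ℝ → ℝ) : Prop := ContDiffOn ℝ ∞ (Function.uncurry u) (strip b)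

/-- Derivative in `s`. -/
noncomputable def dS (b : ℝ) (u : ℝ → ℝ → ℝ) (s y : ℝ) : ℝ :=
  fderivWithin ℝ (Function.uncurry u) (strip b) (s, y) (1, 0)

/-- Derivative in `y`. -/
noncomputable def dY (b : ℝ) (u : ℝ → ℝ → ℝ) (s y : ℝ) : ℝ :=
  fderivWithin ℝ (Function.uncurry u) (strip b) (s, y) (0, 1)

variable {b : ℝ} {u v : ℝ → ℝ → ℝ}

theorem uniqueDiffOn_strip (hb : 0 < b) : UniqueDiffOn ℝ (strip b) :=
  (uniqueDiffOn_Ici 0).prod (uniqueDiffOn_Icc hb)

theorem Fld.fdw (hb : 0 < b) (hu : Fld b u) :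
    ContDiffOn ℝ ∞ (fderivWithin ℝ (Function.uncurry u) (strip b)) (strip b) :=
  ContDiffOn.fderivWithin hu (uniqueDiffOn_strip hb) (le_refl _)

theorem Fld.dS (hb : 0 < b) (hu : Fld b u) : Fld b (dS b u) :=
  (hu.fdw hb).clm_apply contDiffOn_const

theorem Fld.dY (hb : 0 < b) (hu : Fld b u) : Fld b (dY b u) :=
  (hu.fdw hb).clm_apply contDiffOn_const

theorem Fld.cont (hu : Fld b u) : ContinuousOn (Function.uncurry u) (strip b) :=
  hu.continuousOn

theorem Fld.slice (hu : Fld b u) {s : ℝ} (hs : 0 ≤ s) : ContDiffOn ℝ ∞ (u s) (Icc 0 b) :=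
  hu.comp (contDiffOn_const.prodMk contDiffOn_id) (fun _ hy => ⟨hs, hy⟩)

theorem Fld.cont_time (hu : Fld b u) {y : ℝ} (hy : y ∈ Icc 0 b) :
    ContinuousOn (fun s => u s y) (Ici 0) :=
  hu.cont.comp (continuousOn_id.prodMk continuousOn_const) (fun _ hs => ⟨hs, hy⟩)

theorem Fld.hasDerivWithinAt_dS (hu : Fld b u) {s y : ℝ} (hs : 0 ≤ s) (hy : y ∈ Icc 0 b) :
    HasDerivWithinAt (fun r => u r y) (Inner.dS b u s y) (Ici 0) s := by
  have hd := ((hu (s, y) ⟨hs, hy⟩).differentiableWithinAt (by simp)).hasFDerivWithinAt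
  have hc : HasDerivWithinAt (fun r : ℝ => (r, y)) ((1 : ℝ), (0 : ℝ)) (Ici 0) s :=
    (hasDerivWithinAt_id s _).prodMk (hasDerivWithinAt_const s _ y)
  exact hd.comp_hasDerivWithinAt s hc (fun (r : ℝ) (hr : r ∈ Ici (0:ℝ)) => (⟨hr, hy⟩ : (r, y) ∈ strip b))

theorem Fld.hasDerivWithinAt_dY (hu : Fld b u) {s y : ℝ} (hs : 0 ≤ s) (hy : y ∈ Icc 0 b) :
    HasDerivWithinAt (u s) (Inner.dY b u s y) (Icc 0 b) y := by
  have hd := ((hu (s, y) ⟨hs, hy⟩).differentiableWithinAt (by simp)).hasFDerivWithinAt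
  have hc : HasDerivWithinAt (fun r : ℝ => (s, r)) ((0 : ℝ), (1 : ℝ)) (Icc 0 b) y :=
    (hasDerivWithinAt_const y _ s).prodMk (hasDerivWithinAt_id y _)
  exact hd.comp_hasDerivWithinAt y hc (fun (r : ℝ) (hr : r ∈ Icc (0:ℝ) b) => (⟨hs, hr⟩ : (s, r) ∈ strip b))

theorem Fld.hasDerivAt_dY (hu : Fld b u) {s y : ℝ} (hs : 0 ≤ s) (hy : y ∈ Ioo 0 b) :
    HasDerivAt (u s) (Inner.dY b u s y) y :=
  (hu.hasDerivWithinAt_dY hs (Ioo_subset_Icc_self hy)).hasDerivAt (Icc_mem_nhds hy.1 hy.2)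

theorem Fld.deriv_dY (hu : Fld b u) {s y : ℝ} (hs : 0 ≤ s) (hy : y ∈ Ioo 0 b) :
    deriv (u s) y = Inner.dY b u s y :=
  (hu.hasDerivAt_dY hs hy).deriv

theorem Fld.deriv_deriv (hb : 0 < b) (hu : Fld b u) {s y : ℝ} (hs : 0 ≤ s) (hy : y ∈ Ioo 0 b) :
    deriv (deriv (u s)) y = Inner.dY b (Inner.dY b u) s y := by
  have h : deriv (u s) =ᶠ[𝓝 y] Inner.dY b u s :=
    eventually_of_mem (isOpen_Ioo.mem_nhds hy) (fun z hz => hu.deriv_dY hs hz)
  rw [h.deriv_eq]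
  exact (hu.dY hb).deriv_dY hs hy

theorem Fld.hasDerivAt_dS (hu : Fld b u) {s y : ℝ} (hs : 0 < s) (hy : y ∈ Icc 0 b) :
    HasDerivAt (fun r => u r y) (Inner.dS b u s y) s :=
  (hu.hasDerivWithinAt_dS hs.le hy).hasDerivAt (Ici_mem_nhds hs)

theorem Fld.derivWithin_dS (hu : Fld b u) {s y : ℝ} (hs : 0 ≤ s) (hy : y ∈ Icc 0 b) :
    derivWithin (fun r => u r y) (Ici 0) s = Inner.dS b u s y :=
  (hu.hasDerivWithinAt_dS hs hy).derivWithin (uniqueDiffOn_Ici 0 s hs)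

/-- Two fields agreeing inside have the same derivatives. -/
theorem dS_congr (hu : Fld b u) (hv : Fld b v) {y : ℝ} (hy : y ∈ Icc 0 b)
    (h : ∀ r, 0 < r → u r y = v r y) {s : ℝ} (hs : 0 < s) :
    Inner.dS b u s y = Inner.dS b v s y := by
  have he : (fun r => u r y) =ᶠ[𝓝 s] fun r => v r y :=
    eventually_of_mem (Ioi_mem_nhds hs) (fun r hr => h r hr)
  exact ((hu.hasDerivAt_dS hs hy).congr_of_eventuallyEq he.symm).unique (hv.hasDerivAt_dS hs hy)

theorem dY_congr (hu : Fld b u) (hv : Fld b v) {s : ℝ} (hs : 0 ≤ s)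
    (h : ∀ y ∈ Ioo 0 b, u s y = v s y) {y : ℝ} (hy : y ∈ Ioo 0 b) :
    Inner.dY b u s y = Inner.dY b v s y := by
  have he : u s =ᶠ[𝓝 y] v s :=
    eventually_of_mem (isOpen_Ioo.mem_nhds hy) (fun r hr => h r hr)
  exact ((hu.hasDerivAt_dY hs hy).congr_of_eventuallyEq he.symm).unique (hv.hasDerivAt_dY hs hy)

theorem Fld.second (hb : 0 < b) (hu : Fld b u) {s y : ℝ} (hs : 0 < s) (hy : y ∈ Ioo 0 b)
    (p q : ℝ × ℝ) :
    fderiv ℝ (fun z => fderivWithin ℝ (Function.uncurry u) (strip b) z q) (s, y) p =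
      fderiv ℝ (fderiv ℝ (Function.uncurry u)) (s, y) p q := by
  have hopen : IsOpen (Ioi (0:ℝ) ×ˢ Ioo (0:ℝ) b) := isOpen_Ioi.prod isOpen_Ioo
  have hmem : (s, y) ∈ Ioi (0:ℝ) ×ˢ Ioo (0:ℝ) b := ⟨hs, hy⟩
  have he : (fun z => fderivWithin ℝ (Function.uncurry u) (strip b) z q) =ᶠ[𝓝 (s, y)]
      fun z => fderiv ℝ (Function.uncurry u) z q := by
    filter_upwards [hopen.mem_nhds hmem] with z hz
    have hn : strip b ∈ 𝓝 z :=
      prod_mem_nhds (Ici_mem_nhds (show (0:ℝ) < z.1 from hz.1)) (Icc_mem_nhds hz.2.1 hz.2.2)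
    rw [fderivWithin_of_mem_nhds hn]
  rw [he.fderiv_eq]
  have hat : ContDiffAt ℝ ∞ (Function.uncurry u) (s, y) :=
    hu.contDiffAt (prod_mem_nhds (Ici_mem_nhds hs) (Icc_mem_nhds hy.1 hy.2))
  have hd : DifferentiableAt ℝ (fderiv ℝ (Function.uncurry u)) (s, y) :=
    (hat.fderiv_right (m := 1) (WithTop.coe_le_coe.2 le_top)).differentiableAt (by simp)
  rw [fderiv_clm_apply hd (differentiableAt_const q)]
  simp

/-- The two partial derivatives commute inside. -/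
theorem Fld.comm (hb : 0 < b) (hu : Fld b u) {s y : ℝ} (hs : 0 < s) (hy : y ∈ Ioo 0 b) :
    Inner.dS b (Inner.dY b u) s y = Inner.dY b (Inner.dS b u) s y := by
  have hn : strip b ∈ 𝓝 (s, y) :=
    prod_mem_nhds (Ici_mem_nhds hs) (Icc_mem_nhds hy.1 hy.2)
  have hat : ContDiffAt ℝ ∞ (Function.uncurry u) (s, y) := hu.contDiffAt hn
  have hsym : IsSymmSndFDerivAt ℝ (Function.uncurry u) (s, y) :=
    hat.isSymmSndFDerivAt (by simpa using (WithTop.coe_le_coe.2 (le_top (a := (2 : ℕ∞)))))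
  show fderivWithin ℝ (Function.uncurry (Inner.dY b u)) (strip b) (s, y) (1, 0) =
    fderivWithin ℝ (Function.uncurry (Inner.dS b u)) (strip b) (s, y) (0, 1)
  rw [fderivWithin_of_mem_nhds hn, fderivWithin_of_mem_nhds hn]
  have h1 : Function.uncurry (Inner.dY b u) =
      fun z => fderivWithin ℝ (Function.uncurry u) (strip b) z (0, 1) := rfl
  have h2 : Function.uncurry (Inner.dS b u) =
      fun z => fderivWithin ℝ (Function.uncurry u) (strip b) z (1, 0) := rfl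
  rw [h1, h2, hu.second hb hs hy, hu.second hb hs hy]
  exact hsym _ _

/-- An identity valid for `s > 0` extends to `s = 0`. -/
theorem eqOn_zero (f g : ℝ → ℝ) (hf : ContinuousOn f (Ici 0)) (hg : ContinuousOn g (Ici 0))
    (h : EqOn f g (Ioi 0)) {s : ℝ} (hs : 0 ≤ s) : f s = g s :=
  h.of_subset_closure hf hg Ioi_subset_Ici_self (by rw [closure_Ioi]) hs

theorem Fld.continuousOn_integral {Y : ℝ} (hY : 0 ≤ Y) (hYb : Y ≤ b) (hu : Fld b u) :
    ContinuousOn (fun s => ∫ y in (0:ℝ)..Y, u s y) (Ici 0) := by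
  let g : ℝ → ℝ → ℝ := fun s y => u (max s 0) (min (max y 0) b)
  have hb : 0 ≤ b := hY.trans hYb
  have hg : Continuous (Function.uncurry g) :=
    hu.cont.comp_continuous
      (by fun_prop : Continuous fun p : ℝ × ℝ => (max p.1 0, min (max p.2 0) b))
      (fun p => (⟨le_max_right p.1 0, le_min (le_max_right p.2 0) hb, min_le_right _ _⟩ :
        (max p.1 0, min (max p.2 0) b) ∈ strip b))
  have hc := intervalIntegral.continuous_parametric_intervalIntegral_of_continuous'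
    (μ := volume) hg 0 Y
  refine hc.continuousOn.congr ?_
  intro s hs
  refine intervalIntegral.integral_congr ?_
  intro y hy
  rw [uIcc_of_le hY] at hy
  show u s y = u (max s 0) (min (max y 0) b)
  rw [max_eq_left (show (0:ℝ) ≤ s from hs), max_eq_left hy.1, min_eq_left (hy.2.trans hYb)]

theorem Fld.hasDerivAt_integral {Y : ℝ} (hY : 0 ≤ Y) (hYb : Y ≤ b) (hb : 0 < b) (hu : Fld b u)
    {s : ℝ} (hs : 0 < s) :
    HasDerivAt (fun r => ∫ y in (0:ℝ)..Y, u r y) (∫ y in (0:ℝ)..Y, Inner.dS b u s y) s := by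
  have hi : ∀ v, Fld b v → ∀ r : ℝ, 0 ≤ r → IntervalIntegrable (v r) volume 0 Y := by
    intro v hv r hr
    refine ((hv.slice hr).continuousOn.mono ?_).intervalIntegrable
    rw [uIcc_of_le hY]
    exact Icc_subset_Icc le_rfl hYb
  have hk : IsCompact (Icc (s / 2) (2 * s) ×ˢ Icc (0:ℝ) Y) := isCompact_Icc.prod isCompact_Icc
  obtain ⟨C, hC⟩ := hk.exists_bound_of_continuousOn ((hu.dS hb).cont.mono
    (show Icc (s / 2) (2 * s) ×ˢ Icc (0:ℝ) Y ⊆ strip b from fun p hp =>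
      ⟨(half_pos hs).le.trans hp.1.1, hp.2.1, hp.2.2.trans hYb⟩))
  have hn : Icc (s / 2) (2 * s) ∈ 𝓝 s := Icc_mem_nhds (by linarith) (by linarith)
  refine (intervalIntegral.hasDerivAt_integral_of_dominated_loc_of_deriv_le
    (F := fun r y => u r y) (F' := fun r y => Inner.dS b u r y) (bound := fun _ => C) hn ?_
    (hi u hu s hs.le) (hi _ (hu.dS hb) s hs.le).def'.aestronglyMeasurable ?_
    intervalIntegrable_const ?_).2
  · filter_upwards [Ioi_mem_nhds hs] with r hr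
    exact (hi u hu r (le_of_lt hr)).def'.aestronglyMeasurable
  · refine Eventually.of_forall fun y hy r hr => hC (r, y) ⟨hr, ?_⟩
    rw [uIoc_of_le hY] at hy
    exact Ioc_subset_Icc_self hy
  · refine Eventually.of_forall fun y hy r hr => hu.hasDerivAt_dS ((half_pos hs).trans_le hr.1) ?_
    rw [uIoc_of_le hY] at hy
    exact ⟨hy.1.le, hy.2.trans hYb⟩

end Vale.Agent.P264.Inner
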