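import Vale.Agent.P264.Inner.Basic
import Vale.Agent.P264.Inner.Field

/-!
Slices of smooth fields, and differentiation in `s` of `dst`, `cdrift` and weighted norms.
-/

namespace Vale.Agent.P264.Inner

open Set Filter MeasureTheory
open scoped ContDiff Topology

variable {b : ℝ} {u v : ℝ → ℝ → ℝ}

theorem d1_slice (hb : 0 < b) (hu : Fld b u) {s y : ℝ} (hs : 0 ≤ s) (hy : y ∈ Icc 0 b) :
    d1 b (u s) y = dY b u s y :=
  (hu.hasDerivWithinAt_dY hs hy).derivWithin (uniqueDiffOn_Icc hb y hy)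

theorem d2_slice (hb : 0 < b) (hu : Fld b u) {s y : ℝ} (hs : 0 ≤ s) (hy : y ∈ Icc 0 b) :
    d2 b (u s) y = dY b (dY b u) s y := by
  rw [d2, d1, derivWithin_congr (fun z hz => d1_slice hb hu hs hz) (d1_slice hb hu hs hy)]
  exact d1_slice hb (hu.dY hb) hs hy

theorem dS_dY_dY (hb : 0 < b) (hu : Fld b u) {s y : ℝ} (hs : 0 < s) (hy : y ∈ Ioo 0 b) :
    dS b (dY b (dY b u)) s y = dY b (dY b (dS b u)) s y :=
  ((hu.dY hb).comm hb hs hy).trans
    (dY_congr ((hu.dY hb).dS hb) ((hu.dS hb).dY hb) hs.le (fun _ hz => hu.comm hb hs hz) hy)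

theorem hasDerivAt_d2 (hb : 0 < b) (hu : Fld b u) {s y : ℝ} (hs : 0 < s) (hy : y ∈ Ioo 0 b) :
    HasDerivAt (fun r => d2 b (u r) y) (d2 b (dS b u s) y) s := by
  have hy' := Ioo_subset_Icc_self hy
  have h := ((hu.dY hb).dY hb).hasDerivAt_dS hs hy'
  rw [dS_dY_dY hb hu hs hy, ← d2_slice hb (hu.dS hb) hs.le hy'] at h
  exact h.congr_of_eventuallyEq
    (eventually_of_mem (Ioi_mem_nhds hs) (fun r hr => d2_slice hb hu (le_of_lt hr) hy'))

theorem hasDerivAt_cdrift (hb : 0 < b) (hu : Fld b u) {s y : ℝ} (hs : 0 < s)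
    (hy : y ∈ Ioo 0 b) :
    HasDerivAt (fun r => cdrift b (u r) y) (cdrift b (dS b u s) y) s := by
  have hy' := Ioo_subset_Icc_self hy
  have h1 := (hu.dY hb).hasDerivAt_dS hs hy'
  rw [hu.comm hb hs hy, ← d1_slice hb (hu.dS hb) hs.le hy'] at h1
  have h := ((hu.hasDerivAt_dS hs hy').div_const 2).fun_sub ((h1.const_mul y).div_const 2)
  exact h.congr_of_eventuallyEq (eventually_of_mem (Ioi_mem_nhds hs) (fun r hr => by
    simp only [cdrift, d1_slice hb hu (le_of_lt hr) hy']))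

theorem hasDerivAt_dst (hb : 0 < b) (hu : Fld b u) {s y : ℝ} (hs : 0 < s)
    (hy : y ∈ Ioo 0 b) :
    HasDerivAt (fun r => dst (u r) y) (dst (dS b u s) y) s := by
  have hy' := Ioo_subset_Icc_self hy
  have h1 := (hu.dY hb).hasDerivAt_dS hs hy'
  rw [hu.comm hb hs hy, ← d1_slice hb (hu.dS hb) hs.le hy'] at h1
  have h0 := hu.hasDerivAt_dS hs hy'
  have h := ((hasDerivAt_d2 hb hu hs hy).fun_add ((h1.const_mul 14).div_const y)).fun_add
    ((h0.const_mul 42).div_const (y ^ 2))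
  rw [dst_formula hb ((hu.dS hb).slice hs.le) hy]
  exact h.congr_of_eventuallyEq (eventually_of_mem (Ioi_mem_nhds hs) (fun r hr => by
    simp only [dst_formula hb (hu.slice (le_of_lt hr)) hy, d1_slice hb hu (le_of_lt hr) hy']))

theorem continuousOn_cdrift (hb : 0 < b) (hu : Fld b u) {y : ℝ} (hy : y ∈ Ioo 0 b) :
    ContinuousOn (fun r => cdrift b (u r) y) (Ici 0) := by
  have hy' := Ioo_subset_Icc_self hy
  have c0 := hu.cont_time hy'
  have c1 := (hu.dY hb).cont_time hy'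
  have hc : ContinuousOn (fun r => u r y / 2 - y * dY b u r y / 2) (Ici 0) := by fun_prop
  exact hc.congr (fun r hr => by simp only [cdrift, d1_slice hb hu hr hy'])

theorem continuousOn_dst (hb : 0 < b) (hu : Fld b u) {y : ℝ} (hy : y ∈ Ioo 0 b) :
    ContinuousOn (fun r => dst (u r) y) (Ici 0) := by
  have hy' := Ioo_subset_Icc_self hy
  have c0 := hu.cont_time hy'
  have c1 := (hu.dY hb).cont_time hy'
  have c2 := ((hu.dY hb).dY hb).cont_time hy'
  have hc : ContinuousOn (fun r => dY b (dY b u) r y + 14 * dY b u r y / y + 42 * u r y / y ^ 2)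
      (Ici 0) := by
    fun_prop
  exact hc.congr (fun r hr => by
    simp only [dst_formula hb (hu.slice hr) hy, d1_slice hb hu hr hy', d2_slice hb hu hr hy'])

theorem smooth_rho (j : ℕ) : ContDiff ℝ ∞ (rho j) := by
  unfold rho
  exact (contDiff_id.pow 3).div ((contDiff_const.add (contDiff_id.pow 2)).pow j)
    (fun y => pow_ne_zero _ (by positivity))

theorem Fld.wsq_field (hu : Fld b u) {κ : ℝ → ℝ} (hκ : ContDiff ℝ ∞ κ) :
    Fld b (fun r y => κ y ^ 8 * rho 5 y * u r y ^ 2) := by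
  have hsnd : ContDiffOn ℝ ∞ (fun p : ℝ × ℝ => κ p.2 ^ 8 * rho 5 p.2) (strip b) :=
    (((hκ.comp contDiff_snd).pow 8).mul ((smooth_rho 5).comp contDiff_snd)).contDiffOn
  exact hsnd.mul (ContDiffOn.pow hu 2)

/-- Time derivative of a weighted norm on a fixed interval. -/
theorem hasDerivAt_wsq (hb : 0 < b) (hu : Fld b u) {κ : ℝ → ℝ} (hκ : ContDiff ℝ ∞ κ)
    {s : ℝ} (hs : 0 < s) :
    HasDerivAt (fun r => wsq 5 8 κ b (u r))
      (2 * ∫ y in (0:ℝ)..b, κ y ^ 8 * rho 5 y * u s y * dS b u s y) s := by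
  have h := (hu.wsq_field hκ).hasDerivAt_integral hb.le le_rfl hb hs
  rw [← intervalIntegral.integral_const_mul]
  refine h.congr_deriv (intervalIntegral.integral_congr (fun y hy => ?_))
  rw [uIcc_of_le hb.le] at hy
  refine ((hu.wsq_field hκ).hasDerivAt_dS hs hy).unique ?_
  exact ((hu.hasDerivAt_dS hs hy).fun_pow 2 |>.const_mul (κ y ^ 8 * rho 5 y)).congr_deriv (by
    norm_num
    ring)

theorem continuousOn_wsq (hb : 0 < b) (hu : Fld b u) {κ : ℝ → ℝ} (hκ : ContDiff ℝ ∞ κ) :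
    ContinuousOn (fun r => wsq 5 8 κ b (u r)) (Ici 0) :=
  (hu.wsq_field hκ).continuousOn_integral hb.le le_rfl

/-- Comparison for `f' ≤ -d f + K`. -/
theorem gronwall_damped {f : ℝ → ℝ} {d K s : ℝ} (hd : 0 < d) (hK : 0 ≤ K) (hs : 0 ≤ s)
    (hf0 : 0 ≤ f 0) (hc : ContinuousOn f (Icc 0 s))
    (h : ∀ r ∈ Ioo 0 s, ∃ f', HasDerivAt f f' r ∧ f' ≤ -d * f r + K) :
    f s ≤ f 0 + K / d := by
  set g := fun r => Real.exp (d * r) * (f r - K / d) with hg
  have hgd : ∀ r ∈ Ioo 0 s, ∃ g', HasDerivAt g g' r ∧ g' ≤ 0 := fun r hr => by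
    obtain ⟨f', hf', hle⟩ := h r hr
    refine ⟨_, (((hasDerivAt_id r).const_mul d).exp).fun_mul (hf'.sub_const (K / d)), ?_⟩
    simp only [id, mul_one]
    have : Real.exp (d * r) * d * (f r - K / d) + Real.exp (d * r) * f'
        = Real.exp (d * r) * (f' + d * f r - K) := by
      field_simp
      ring
    rw [this]
    exact mul_nonpos_of_nonneg_of_nonpos (Real.exp_pos _).le (by linarith)
  have hgc : ContinuousOn g (Icc 0 s) := by
    simp only [hg]
    fun_prop
  have hanti : g s ≤ g 0 :=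
    antitoneOn_of_deriv_nonpos (convex_Icc 0 s) hgc
      (fun r hr => by
        rw [interior_Icc] at hr
        obtain ⟨g', h1, -⟩ := hgd r hr
        exact h1.differentiableAt.differentiableWithinAt)
      (fun r hr => by
        rw [interior_Icc] at hr
        obtain ⟨g', h1, h2⟩ := hgd r hr
        rw [h1.deriv]
        exact h2)
      (left_mem_Icc.2 hs) (right_mem_Icc.2 hs) hs
  rw [hg] at hanti
  simp only [mul_zero, Real.exp_zero, one_mul] at hanti
  by_contra hcon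
  push Not at hcon
  have h1 : 1 ≤ Real.exp (d * s) := Real.one_le_exp (by positivity)
  have h2 : 0 ≤ f s - K / d := by linarith
  have h3 := le_mul_of_one_le_left h2 h1
  have : 0 ≤ K / d := by positivity
  linarith

end Vale.Agent.P264.Inner
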