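import Vale.Agent.P264.Inner.Flux

/-!
The differential inequality of the inner hierarchy, static form.
-/

namespace Vale.Agent.P264.Inner

open Set Filter MeasureTheory
open scoped ContDiff Topology

variable {σ : Shrinker} {R M δ M' G m : ℝ} {Φ V Z1 Z2 Z3 : ℝ → ℝ}

/-- Forcing factor of the second level. -/
noncomputable def forceK (R : ℝ) (Φ Z1 : ℝ → ℝ) (z : ℝ) : ℝ :=
  -2 * Φ z * d2 (64 * R) Z1 z ^ 2

/-- The forcing is a small multiple of the dissipations. -/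
theorem force_bound {C e : ℝ} (hB : Box σ R M δ M' G m) (hS : Slice σ R M Φ V Z1 Z2)
    (hflux : ∀ y ∈ Ioo 0 (16 * R),
      th2 R y ^ 4 * |coef1 Φ y * d2 (16 * R) Z1 y| ≤ C * e) :
    fsq 5 (th2 R) (64 * R) (coef1 Φ) (forceK R Φ Z1) ≤
      (C * e) ^ 2 * (4 * (3 * (64 * R) ^ 2 / m ^ 2 + 1 / (m * δ ^ 2))) *
        (tot δ (64 * R) (th1 R) (coef1 Φ) Z1 + tot δ (64 * R) (th2 R) (coef1 Φ) Z2) := by
  have hR : 0 < R := by linarith [hB.R_one]
  have hb : 0 < 64 * R := by positivity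
  have hm := hB.m_pos
  have hδ := hB.δ_pos
  obtain ⟨-, ha, hl⟩ := hB.coef Φ hS.prof (64 * R) le_rfl
  obtain ⟨-, k1, k2⟩ := hB.cuts (64 * R) le_rfl
  have cκ2 := k2.smooth.continuous.continuousOn (s := Icc 0 (64 * R))
  have cκ1 := k1.smooth.continuous.continuousOn (s := Icc 0 (64 * R))
  have cρ := (continuous_rho 5).continuousOn (s := Icc 0 (64 * R))
  have cΦ := hS.prof.smooth.continuousOn
  have c12 := (smooth_d2 hb hS.sm1).continuousOn
  have ca := ha.smooth.continuousOn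
  have cK : ContinuousOn (forceK R Φ Z1) (Icc 0 (64 * R)) := by
    unfold forceK
    fun_prop
  set N := near δ Z1 + near δ Z2 with hN
  have hN0 : 0 ≤ N := add_nonneg (near_nonneg hδ.le _) (near_nonneg hδ.le _)
  set A := (C * e) ^ 2 with hA
  have hA0 : 0 ≤ A := sq_nonneg _
  have main : fsq 5 (th2 R) (64 * R) (coef1 Φ) (forceK R Φ Z1) ≤
      ∫ y in (0:ℝ)..64 * R, 4 * A * (3 * N * (64 * R) / m ^ 2
        + th1 R y ^ 8 * rho 5 y * (coef1 Φ y * d2 (64 * R) Z1 y ^ 2) / (m * δ ^ 2)) := by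
    refine integral_le hb.le (II.of_cont hb.le (by fun_prop)) (II.of_cont hb.le (by fun_prop))
      (fun y hy => ?_)
    have hr := rho_nonneg 5 hy.1.le
    have h1 := k1.nonneg y
    have h2 := k2.nonneg y
    have ha0 := ha.pos y hy
    have hP : 0 ≤ 3 * N * (64 * R) / m ^ 2 := by positivity
    have hQ : 0 ≤ th1 R y ^ 8 * rho 5 y * (coef1 Φ y * d2 (64 * R) Z1 y ^ 2) / (m * δ ^ 2) := by
      positivity
    rcases le_or_gt (16 * R) y with h16 | h16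
    · rw [(th_zero hR).2.2 y h16]
      simp only [zero_pow (show 8 ≠ 0 by norm_num), zero_mul]
      positivity
    set Z := d2 (64 * R) Z1 y with hZ
    set a := coef1 Φ y with haDef
    have hK : th2 R y ^ 8 * rho 5 y * (a * forceK R Φ Z1 y ^ 2)
        = 4 * ((th2 R y ^ 4 * (a * Z)) ^ 2 * (rho 5 y * Z ^ 2)) := by
      rw [forceK, haDef, coef1]
      ring
    have hsup : (th2 R y ^ 4 * (a * Z)) ^ 2 ≤ A := by
      have h := hflux y ⟨hy.1, h16⟩
      rw [d2_restrict (b := 64 * R) (by linarith) hS.sm1 ⟨hy.1, h16⟩] at h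
      rw [hA, ← sq_abs, abs_mul, abs_of_nonneg (pow_nonneg h2 4)]
      exact pow_le_pow_left₀ (by positivity) h 2
    rw [hK]
    have hla := (hl y (Ioo_subset_Icc_self hy)).2
    have hy2 : 0 < y ^ 2 := pow_pos hy.1 2
    have hbase : rho 5 y * Z ^ 2 ≤ 3 * N * (64 * R) / m ^ 2
        + th1 R y ^ 8 * rho 5 y * (a * Z ^ 2) / (m * δ ^ 2) := by
      rcases lt_or_ge y δ with hyd | hyd
      · refine le_add_of_le_of_nonneg ?_ hQ
        have hn := flux_near hB hS ⟨hy.1, hyd⟩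
        rw [d2_restrict (b := 64 * R) (hB.δ_le.trans (by linarith [hB.R_one])) hS.sm1
          ⟨hy.1, hyd⟩, ← haDef, ← hZ, ← hN] at hn
        have h3 : (m * y ^ 2 * Z) ^ 2 ≤ 3 * y ^ 2 * N := by
          refine le_trans ?_ hn
          rw [mul_pow (m * y ^ 2), mul_pow a]
          exact mul_le_mul_of_nonneg_right (pow_le_pow_left₀ (by positivity) hla 2) (sq_nonneg Z)
        calc rho 5 y * Z ^ 2 ≤ y ^ 3 * Z ^ 2 :=
              mul_le_mul_of_nonneg_right (rho_le_pow_three hy.1.le) (sq_nonneg Z)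
          _ = y * (m * y ^ 2 * Z) ^ 2 / (m ^ 2 * y ^ 2) := by
              have := hy.1.ne'
              field_simp
          _ ≤ y * (3 * y ^ 2 * N) / (m ^ 2 * y ^ 2) := by
              have := hy.1.le
              gcongr
          _ = 3 * N * y / m ^ 2 := by
              have := hy.1.ne'
              field_simp
          _ ≤ _ := by
              have := hy.2.le
              gcongr
      · refine le_add_of_nonneg_of_le hP ?_
        rw [(th_one hR).2.1 h16.le, one_pow, one_mul, le_div_iff₀ (by positivity)]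
        have hd2 : m * δ ^ 2 ≤ a :=
          (mul_le_mul_of_nonneg_left (pow_le_pow_left₀ hδ.le hyd 2) hm.le).trans hla
        have hrZ : 0 ≤ rho 5 y * Z ^ 2 := by positivity
        nlinarith [mul_le_mul_of_nonneg_left hd2 hrZ]
    calc 4 * ((th2 R y ^ 4 * (a * Z)) ^ 2 * (rho 5 y * Z ^ 2))
        ≤ 4 * (A * (3 * N * (64 * R) / m ^ 2
          + th1 R y ^ 8 * rho 5 y * (a * Z ^ 2) / (m * δ ^ 2))) := by gcongr
      _ = _ := by ring
  refine main.trans ?_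
  rw [intervalIntegral.integral_const_mul, intervalIntegral.integral_add intervalIntegrable_const
    (II.of_cont hb.le (by fun_prop)), intervalIntegral.integral_const,
    intervalIntegral.integral_div, ← diss_eq hb hS.sm1]
  simp only [sub_zero, smul_eq_mul]
  have hd1 : 0 ≤ diss 5 (th1 R) (64 * R) (coef1 Φ) Z1 := diss_nonneg hb.le ha k1.nonneg
  have hd2 : 0 ≤ diss 5 (th2 R) (64 * R) (coef1 Φ) Z2 := diss_nonneg hb.le ha k2.nonneg
  have hn1 := near_nonneg hδ.le Z1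
  have hn2 := near_nonneg hδ.le Z2
  have hP : 0 ≤ 3 * (64 * R) ^ 2 / m ^ 2 := by positivity
  have hQ : 0 ≤ 1 / (m * δ ^ 2) := by positivity
  have e1 : 4 * A * (64 * R * (3 * N * (64 * R) / m ^ 2)
      + diss 5 (th1 R) (64 * R) (coef1 Φ) Z1 / (m * δ ^ 2))
      = A * 4 * ((3 * (64 * R) ^ 2 / m ^ 2) * N
        + (1 / (m * δ ^ 2)) * diss 5 (th1 R) (64 * R) (coef1 Φ) Z1) := by
    field_simp
  rw [e1, tot, tot]
  calc A * 4 * ((3 * (64 * R) ^ 2 / m ^ 2) * N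
        + (1 / (m * δ ^ 2)) * diss 5 (th1 R) (64 * R) (coef1 Φ) Z1)
      ≤ A * 4 * ((3 * (64 * R) ^ 2 / m ^ 2 + 1 / (m * δ ^ 2)) *
        (diss 5 (th1 R) (64 * R) (coef1 Φ) Z1 + near δ Z1
          + (diss 5 (th2 R) (64 * R) (coef1 Φ) Z2 + near δ Z2))) := by
        refine mul_le_mul_of_nonneg_left ?_ (by positivity)
        rw [add_mul]
        refine add_le_add (mul_le_mul_of_nonneg_left ?_ hP) (mul_le_mul_of_nonneg_left ?_ hQ)
        · rw [hN]; linarith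
        · linarith
    _ = _ := by ring

theorem wsq_shrink {Y₁ Y₂ : ℝ} (hY₁ : 0 ≤ Y₁) (hY : Y₁ ≤ Y₂) {p : ℕ} (hp : 0 < p) {κ U : ℝ → ℝ}
    (hκ : Continuous κ) (hU : ContinuousOn U (Icc 0 Y₂)) (hz : ∀ y, Y₁ ≤ y → κ y = 0) :
    wsq 5 p κ Y₂ U = wsq 5 p κ Y₁ U := by
  have cκ := hκ.continuousOn (s := Icc 0 Y₂)
  have cρ := (continuous_rho 5).continuousOn (s := Icc 0 Y₂)
  have c : ContinuousOn (fun y => κ y ^ p * rho 5 y * U y ^ 2) (Icc 0 Y₂) := by fun_prop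
  have h2 : IntervalIntegrable (fun y => κ y ^ p * rho 5 y * U y ^ 2) volume Y₁ Y₂ :=
    (c.mono (Icc_subset_Icc hY₁ le_rfl)).intervalIntegrable_of_Icc hY
  rw [wsq, wsq, ← intervalIntegral.integral_add_adjacent_intervals
    (II.of_cont hY₁ (c.mono (Icc_subset_Icc le_rfl hY))) h2,
    intervalIntegral.integral_congr_Ioo_of_le hY (g := fun _ => (0:ℝ))
      (fun y hy => by simp [hz y hy.1.le, zero_pow hp.ne'])]
  simp

theorem th0_pow_le {R : ℝ} (hR : 0 < R) {y : ℝ} (p q : ℕ) (hp : 0 < p) :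
    th1 R y ^ p ≤ th0 R y ^ q := by
  rcases le_or_gt (32 * R) y with h | h
  · rw [(th_zero hR).2.1 y h, zero_pow hp.ne']
    exact pow_nonneg (cut_nonneg _ _) q
  · rw [(th_one hR).1 h.le, one_pow]
    exact pow_le_one₀ (cut_nonneg _ _) (cut_le_one _ _)

theorem combine_arith {c0 c1 c2 C0 C1 C2 L1 L2 P0 P1 P2 T0 T1 T2 NV W1 W2 F ν : ℝ}
    (h0 : c0 * T0 + P0 ≤ C0 * NV) (h1 : c1 * T1 + P1 ≤ C1 * W1)
    (h2 : c2 * T2 + P2 ≤ C2 * (W2 + F))
    (w1 : W1 ≤ c1 / (2 * C1) * T1 + L1 * (T0 + NV))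
    (w2 : W2 ≤ c2 / (4 * C2) * T2 + L2 * (T1 + W1)) (hF : F ≤ ν * (T1 + T2))
    (hν : C2 * ν ≤ c2 / 4) (hc1 : 0 < c1) (hc2 : 0 < c2)
    (hC1 : 0 < C1) (hC2 : 0 < C2) (hL2 : 0 < L2) (hT1 : 0 ≤ T1) (hT2 : 0 ≤ T2) :
    c0 * T0 + P0 ≤ C0 * NV ∧ c1 / 2 * T1 + P1 ≤ C1 * L1 * (T0 + NV) ∧
      c2 / 2 * T2 + P2 ≤ (C2 * L2 * (1 + c1 / (2 * C1)) + c2 / 4) * T1
        + C2 * L2 * L1 * (T0 + NV) := by
  refine ⟨h0, ?_, ?_⟩
  · have := mul_le_mul_of_nonneg_left w1 hC1.le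
    have e : C1 * (c1 / (2 * C1) * T1) = c1 / 2 * T1 := by field_simp
    linarith
  · have a := mul_le_mul_of_nonneg_left w2 hC2.le
    have e : C2 * (c2 / (4 * C2) * T2) = c2 / 4 * T2 := by field_simp
    have b := mul_le_mul_of_nonneg_left w1 (mul_nonneg hC2.le hL2.le)
    have f := mul_le_mul_of_nonneg_left hF hC2.le
    have g := mul_le_mul_of_nonneg_right hν (add_nonneg hT1 hT2)
    linarith

theorem final_arith {c0 c1 c2 a0 b0 b1 P0 P1 P2 T0 T1 T2 NV N0 E1 E2 C0 W1 W2 l1 l2 k1 k2 : ℝ}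
    (hc0 : 0 < c0) (hc1 : 0 < c1) (hc2 : 0 < c2) (hb1 : 0 < b1) (hb0 : 0 < b0)
    (ha0 : 0 < a0) (hl1 : 0 < l1) (hl2 : 0 < l2) (hk1 : 0 < k1) (hk2 : 0 < k2)
    (h0 : c0 * T0 + P0 ≤ C0 * NV) (h1 : c1 * T1 + P1 ≤ a0 * (T0 + NV))
    (h2 : c2 * T2 + P2 ≤ b1 * T1 + b0 * (T0 + NV))
    (hT0 : 0 ≤ T0) (hT1 : 0 ≤ T1) (hT2 : 0 ≤ T2) (hNV : 0 ≤ NV)
    (hN : N0 ≤ NV) (hE1 : E1 ≤ W1) (hE2 : E2 ≤ W2) (w1 : W1 ≤ k1 * T1 + l1 * (T0 + NV))
    (w2 : W2 ≤ k2 * T2 + l2 * (T1 + W1)) (A ε d K : ℝ) (hA : A = (a0 + b0) / c0 + 1)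
    (hε : ε = min 1 (c1 / (2 * b1)))
    (hd : d = 2 * min (min c0 (c1 / 2)) (ε * c2) / (A + 1 + k1 + l1 + (k2 + l2 + l2 * k1 + l2 * l1)))
    (hK : K = 2 * (A * C0 + a0 + b0) + 2 * min (min c0 (c1 / 2)) (ε * c2)) :
    2 * (A * P0 + P1 + ε * P2) ≤ -d * (A * N0 + E1 + ε * E2) + K * NV := by
  have hA1 : 1 ≤ A := by rw [hA]; linarith [div_nonneg (add_nonneg ha0.le hb0.le) hc0.le]
  have hε0 : 0 < ε := by rw [hε]; exact lt_min one_pos (by positivity)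
  have hε1 : ε ≤ 1 := hε.le.trans (min_le_left _ _)
  have hεb : ε * b1 ≤ c1 / 2 := by
    have : ε ≤ c1 / (2 * b1) := hε.le.trans (min_le_right _ _)
    calc ε * b1 ≤ c1 / (2 * b1) * b1 := mul_le_mul_of_nonneg_right this hb1.le
      _ = c1 / 2 := by field_simp
  set k := min (min c0 (c1 / 2)) (ε * c2) with hk
  have hk0 : 0 < k := lt_min (lt_min hc0 (by linarith)) (mul_pos hε0 hc2)
  have kc0 : k ≤ c0 := (min_le_left _ _).trans (min_le_left _ _)
  have kc1 : k ≤ c1 / 2 := (min_le_left _ _).trans (min_le_right _ _)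
  have kc2 : k ≤ ε * c2 := min_le_right _ _
  have hAc : A * c0 = a0 + b0 + c0 := by rw [hA]; field_simp
  set S := T0 + T1 + T2 + NV with hS
  have hlin : A * P0 + P1 + ε * P2 ≤ -k * S + (A * C0 + a0 + b0 + k) * NV := by
    have e0 := mul_le_mul_of_nonneg_left h0 (by linarith : 0 ≤ A)
    have e2 := mul_le_mul_of_nonneg_left h2 hε0.le
    have f1 := mul_le_mul_of_nonneg_right hεb hT1
    have f2 := mul_le_mul_of_nonneg_right hε1 (mul_nonneg hb0.le (add_nonneg hT0 hNV))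
    have g0 := mul_le_mul_of_nonneg_right kc0 hT0
    have g1 := mul_le_mul_of_nonneg_right kc1 hT1
    have g2 := mul_le_mul_of_nonneg_right kc2 hT2
    have r0 : A * (c0 * T0) = a0 * T0 + b0 * T0 + c0 * T0 := by rw [← mul_assoc, hAc]; ring
    linarith
  set D := A + 1 + k1 + l1 + (k2 + l2 + l2 * k1 + l2 * l1) with hD
  have hD0 : 0 < D := by positivity
  have hLam : A * N0 + E1 + ε * E2 ≤ D * S := by
    have s0 : T0 + NV ≤ S := by linarith
    have s1 : T1 ≤ S := by linarith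
    have s2 : T2 ≤ S := by linarith
    have s3 : 0 ≤ S := by linarith
    have u1 : W1 ≤ (k1 + l1) * S := by
      have := mul_le_mul_of_nonneg_left s1 hk1.le
      have := mul_le_mul_of_nonneg_left s0 hl1.le
      linarith
    have u2 : W2 ≤ (k2 + l2 + l2 * k1 + l2 * l1) * S := by
      have := mul_le_mul_of_nonneg_left s2 hk2.le
      have := mul_le_mul_of_nonneg_left (add_le_add s1 u1) hl2.le
      linarith
    have : A * N0 ≤ A * S := mul_le_mul_of_nonneg_left (by linarith) (by linarith)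
    have : ε * E2 ≤ (k2 + l2 + l2 * k1 + l2 * l1) * S := by
      calc ε * E2 ≤ ε * ((k2 + l2 + l2 * k1 + l2 * l1) * S) :=
            mul_le_mul_of_nonneg_left (hE2.trans u2) hε0.le
        _ ≤ _ := mul_le_of_le_one_left (by positivity) hε1
    linarith
  have hd0 : 0 ≤ d := by rw [hd]; positivity
  have hdD : d * (A * N0 + E1 + ε * E2) ≤ 2 * (k * S) := by
    refine (mul_le_mul_of_nonneg_left hLam hd0).trans_eq ?_
    rw [hd]
    field_simp
  rw [hK]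
  linarith

/-- Arithmetic of one slice, with all levels. -/
theorem hierarchy (hCo : Energy.CoerciveTarget) (hFo : Energy.ForcingTarget)
    (hIn : Energy.InterpTarget) :
    ∃ δ₀ : ℝ, 0 < δ₀ ∧ ∀ (σ : Shrinker) (R M δ M' G m : ℝ), δ ≤ δ₀ → Box σ R M δ M' G m →
      ∃ A ε d K η : ℝ, 0 < A ∧ 0 < ε ∧ ε ≤ 1 ∧ 0 < d ∧ 0 ≤ K ∧ 0 < η ∧ ∀ Φ V Z1 Z2 Z3,
        Slice σ R M Φ V Z1 Z2 → ContinuousOn Z3 (Icc 0 (64 * R)) →
        (∀ y ∈ Ioo 0 (64 * R), Z3 y = cdrift (64 * R) Z2 y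
          - dst (fun z => coef1 Φ z * d2 (64 * R) Z2 z + coef1 Φ z * forceK R Φ Z1 z) y) →
        size R V Z1 Z2 ≤ η →
        2 * (A * (∫ y in (0:ℝ)..64 * R, th0 R y ^ 8 * rho 5 y * V y * Z1 y)
            + (∫ y in (0:ℝ)..64 * R, th1 R y ^ 8 * rho 5 y * Z1 y * Z2 y)
            + ε * (∫ y in (0:ℝ)..64 * R, th2 R y ^ 8 * rho 5 y * Z2 y * Z3 y))
          ≤ -d * (A * wsq 5 8 (th0 R) (64 * R) V + wsq 5 8 (th1 R) (64 * R) Z1
              + ε * wsq 5 8 (th2 R) (64 * R) Z2)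
            + K * wsq 5 0 (fun _ => 1) (64 * R) V := by
  obtain ⟨δ₁, hδ₁, hcore⟩ := core hCo hFo hIn
  obtain ⟨δ₂, hδ₂, hlev⟩ := level hFo hIn
  obtain ⟨δ₃, hδ₃, hsup⟩ := slice_sup hCo hFo hIn
  refine ⟨min (min δ₁ δ₂) δ₃, lt_min (lt_min hδ₁ hδ₂) hδ₃, fun σ R M δ M' G m hδ0 hB => ?_⟩
  have hR : 0 < R := by linarith [hB.R_one]
  have hδY : δ ≤ 64 * R := hB.δ_le.trans (by linarith [hB.R_one])
  obtain ⟨c, C, hc, hC, hco⟩ := hcore M' G δ m (64 * R) hB.δ_pos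
    (hδ0.trans ((min_le_left _ _).trans (min_le_left _ _))) hδY hB.m_pos
  obtain ⟨L1, hL1, hl1⟩ := hlev M' G δ m (64 * R) hB.δ_pos
    (hδ0.trans ((min_le_left _ _).trans (min_le_right _ _))) hδY hB.m_pos hB.M_nonneg hB.G_nonneg
    (c / (2 * C)) (by positivity)
  obtain ⟨L2, hL2, hl2⟩ := hlev M' G δ m (64 * R) hB.δ_pos
    (hδ0.trans ((min_le_left _ _).trans (min_le_right _ _))) hδY hB.m_pos hB.M_nonneg hB.G_nonneg
    (c / (4 * C)) (by positivity)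
  obtain ⟨S, hS0, hsu⟩ := hsup σ R M δ M' G m (hδ0.trans (min_le_right _ _)) hB
  set J := 4 * (3 * (64 * R) ^ 2 / m ^ 2 + 1 / (m * δ ^ 2)) with hJ
  have hJ0 : 0 < J := by
    have := hB.m_pos
    have := hB.δ_pos
    positivity
  set η := c / (4 * C * (S ^ 2 * J)) with hη
  have hη0 : 0 < η := by positivity
  set a0 := C * L1
  set b0 := C * L2 * L1
  set b1 := C * L2 * (1 + c / (2 * C)) + c / 4
  set A := (a0 + b0) / c + 1 with hA
  set ε := min 1 (c / 2 / (2 * b1)) with hε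
  have hε0 : 0 < ε := lt_min one_pos (by positivity)
  set k := min (min c (c / 2 / 2)) (ε * (c / 2)) with hk
  have hk0 : 0 < k := lt_min (lt_min hc (by positivity)) (by positivity)
  refine ⟨A, ε,
    2 * k / (A + 1 + c / (2 * C) + L1 + (c / (4 * C) + L2 + L2 * (c / (2 * C)) + L2 * L1)),
    2 * (A * C + a0 + b0) + 2 * k, η, by positivity, hε0, min_le_left _ _, by positivity,
    by positivity, hη0, fun Φ V Z1 Z2 Z3 hSl cZ3 heq3 hsz => ?_⟩
  obtain ⟨ka0, ka1, hl⟩ := hB.coef Φ hSl.prof (64 * R) le_rfl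
  obtain ⟨k0, k1, k2⟩ := hB.cuts (64 * R) le_rfl
  obtain ⟨z0, z1, z2⟩ := th_zero hR
  have z1' : ∀ y, 64 * R ≤ y → th1 R y = 0 := fun y hy => z1 y (by linarith)
  have z2' : ∀ y, 64 * R ≤ y → th2 R y = 0 := fun y hy => z2 y (by linarith)
  have o0 : th0 R 0 = 1 := (th_one hR).1 (by positivity)
  have o1 : th1 R 0 = 1 := (th_one hR).2.1 (by positivity)
  have o2 : th2 R 0 = 1 := (th_one hR).2.2 (by positivity)
  have la0 := fun y hy => (hl y hy).1
  have la1 := fun y hy => (hl y hy).2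
  have hb : 0 < 64 * R := by positivity
  have cK : ContinuousOn (forceK R Φ Z1) (Icc 0 (64 * R)) := by
    have := hSl.prof.smooth.continuousOn
    have := (smooth_d2 hb hSl.sm1).continuousOn
    unfold forceK
    fun_prop
  have sF : ContDiffOn ℝ ∞ (fun z => coef1 Φ z * forceK R Φ Z1 z) (Icc 0 (64 * R)) :=
    ka1.smooth.mul ((contDiffOn_const.mul hSl.prof.smooth).mul ((smooth_d2 hb hSl.sm1).pow 2))
  have h0 := hco (coef0 σ Φ) (th0 R) V Z1 (fun _ => 0) (fun _ => 0) ka0 k0 z0 o0 la0 hSl.smV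
    contDiffOn_const continuousOn_const (fun y _ => (mul_zero _).symm)
    (fun y hy => by simpa only [add_zero] using hSl.eq1' le_rfl hy)
  have h1 := hco (coef1 Φ) (th1 R) Z1 Z2 (fun _ => 0) (fun _ => 0) ka1 k1 z1' o1 la1 hSl.sm1
    contDiffOn_const continuousOn_const (fun y _ => (mul_zero _).symm)
    (fun y hy => by simpa only [add_zero] using hSl.eq2' le_rfl hy)
  have h2 := hco (coef1 Φ) (th2 R) Z2 Z3 (fun z => coef1 Φ z * forceK R Φ Z1 z) (forceK R Φ Z1)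
    ka1 k2 z2' o2 la1 hSl.sm2 sF cK (fun _ _ => rfl) heq3
  have f0 : ∀ κ a : ℝ → ℝ, fsq 5 κ (64 * R) a (fun _ => 0) = 0 := fun κ a => by simp [fsq]
  rw [f0, add_zero] at h0 h1
  have w1 := hl1 (coef1 Φ) (coef0 σ Φ) (th0 R) (th1 R) V Z1 ka1 ka0 k0 k1 z0 z1' o0 o1
    (fun y _ h => (th_one hR).1 (le_of_not_gt fun hh => h (z1 y hh.le)))
    la1 la0 hSl.smV hSl.sm1 (fun y hy => hSl.eq1' le_rfl hy)
  have w2 := hl2 (coef1 Φ) (coef1 Φ) (th1 R) (th2 R) Z1 Z2 ka1 ka1 k1 k2 z1' z2' o1 o2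
    (fun y _ h => (th_one hR).2.1 (le_of_not_gt fun hh => h (z2 y hh.le)))
    la1 la1 hSl.sm1 hSl.sm2 (fun y hy => hSl.eq2' le_rfl hy)
  have hNV := wsq_nonneg hb.le (p := 0) (κ := fun _ => (1:ℝ)) (U := V) (fun _ => zero_le_one)
  have hV4 : wsq 5 4 (th0 R) (64 * R) V ≤ wsq 5 0 (fun _ => 1) (64 * R) V :=
    wsq_le_of_le hb.le le_rfl (cut_smooth _).continuous continuous_const (fun _ => zero_le_one)
      hSl.smV.continuousOn
      (fun y _ => by rw [pow_zero]; exact pow_le_one₀ (cut_nonneg _ _) (cut_le_one _ _))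
  have hE : ∀ (κ U : ℝ → ℝ), Cut (64 * R) G δ κ → ContinuousOn U (Icc 0 (64 * R)) →
      wsq 5 8 κ (64 * R) U ≤ wsq 5 4 κ (64 * R) U := fun κ U hκ hU =>
    wsq_le_of_le hb.le le_rfl hκ.smooth.continuous hκ.smooth.continuous hκ.nonneg hU
      (fun y _ => cut_pow_le hκ (by norm_num) y)
  have hfl := (hsu Φ V Z1 Z2 hSl (Real.sqrt η) (Real.sqrt_pos.2 hη0)
    (by rw [Real.sq_sqrt hη0.le]; exact hsz)).1
  have hF := force_bound hB hSl hfl
  rw [← hJ] at hF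
  have hν : C * ((S * Real.sqrt η) ^ 2 * J) ≤ c / 4 := by
    rw [mul_pow, Real.sq_sqrt hη0.le, hη]
    refine le_of_eq ?_
    field_simp
  have tn : ∀ (κ a U : ℝ → ℝ), Cut (64 * R) G δ κ → Coef (64 * R) M' δ a →
      0 ≤ tot δ (64 * R) κ a U := fun κ a U hκ ha =>
    add_nonneg (diss_nonneg hb.le ha hκ.nonneg) (near_nonneg hB.δ_pos.le _)
  set T0 := tot δ (64 * R) (th0 R) (coef0 σ Φ) V
  set T1 := tot δ (64 * R) (th1 R) (coef1 Φ) Z1
  have hT0 : 0 ≤ T0 := tn _ _ _ k0 ka0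
  have hT1 : 0 ≤ T1 := tn _ _ _ k1 ka1
  have hT2 := tn _ _ Z2 k2 ka1
  have h0' := h0.trans (mul_le_mul_of_nonneg_left hV4 hC.le)
  have w1' := w1.trans (add_le_add le_rfl
    (mul_le_mul_of_nonneg_left (add_le_add le_rfl hV4) hL1.le))
  obtain ⟨g0, g1, g2⟩ := combine_arith h0' h1 h2 w1' w2 hF hν hc hc hC hC hL2 hT1 hT2
  exact final_arith hc (by positivity) (by positivity) (by positivity) (by positivity)
    (by positivity) hL1 hL2 (by positivity) (by positivity) g0 g1 g2 hT0 hT1 hT2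
    hNV ((hE _ _ k0 hSl.smV.continuousOn).trans hV4) (hE _ _ k1 hSl.sm1.continuousOn)
    (hE _ _ k2 hSl.sm2.continuousOn) w1' w2 _ _ _ _ rfl rfl rfl rfl

end Vale.Agent.P264.Inner
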