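import Vale.Agent.P264.Inner.Basic

/-!
Profiles inside the bootstrap window and the coefficient hypotheses they give.
-/

namespace Vale.Agent.P264.Inner

open Set
open scoped ContDiff

/-- What the bootstrap gives for one profile on `[0, 64 R]`. -/
structure Prof (σ : Shrinker) (R M : ℝ) (Φ : ℝ → ℝ) : Prop where
  smooth : ContDiffOn ℝ ∞ Φ (Icc 0 (64 * R))
  zero : Φ 0 = 0
  pos : ∀ y ∈ Ioc 0 (64 * R), 0 < Φ y
  lower : ∀ y ∈ Ioc 0 (64 * R), y * σ.q y ≤ M * Φ y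
  upper : ∀ y ∈ Ioc 0 (64 * R), Φ y ≤ M * (y * σ.q y)
  slope : ∀ y ∈ Ioo 0 (64 * R), |deriv Φ y| ≤ M
  cap : ∀ y ∈ Ioo 0 (8 * R), |Φ y - y * σ.q y| ≤ y * σ.q y / 1000

theorem shrinker_smooth (σ : Shrinker) (b : ℝ) :
    ContDiffOn ℝ ∞ (fun z => z * σ.q z) (Icc 0 b) :=
  contDiffOn_id.mul (σ.q_smooth.mono Icc_subset_Ici_self)

/-- Coefficient bounds of a profile, with constants depending on `σ`, `R`, `M` only. -/
theorem prof_coef (σ : Shrinker) (R M : ℝ) (hR : 1 ≤ R) :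
    ∃ M' δ₁ m : ℝ, 0 < M' ∧ 0 < δ₁ ∧ δ₁ ≤ 1 ∧ 0 < m ∧ ∀ Φ : ℝ → ℝ, Prof σ R M Φ →
      (∀ Y δ : ℝ, δ ≤ δ₁ → Y ≤ 64 * R →
        Coef Y M' δ (fun y => Φ y * (y * σ.q y)) ∧ Coef Y M' δ (fun y => Φ y * Φ y)) ∧
      ∀ y ∈ Icc 0 (64 * R),
        m * y ^ 2 ≤ Φ y * (y * σ.q y) ∧ m * y ^ 2 ≤ Φ y * Φ y := by
  have hb : 0 < 64 * R := by linarith
  have hq : ContinuousOn σ.q (Icc 0 (64 * R)) :=
    σ.q_smooth.continuousOn.mono Icc_subset_Ici_self
  obtain ⟨Qu', hQu⟩ := isCompact_Icc.exists_bound_of_continuousOn hq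
  obtain ⟨y₁, hy₁, hmin⟩ := isCompact_Icc.exists_isMinOn
    (nonempty_Icc.2 hb.le) hq
  obtain ⟨Qd', hQd⟩ := isCompact_Icc.exists_bound_of_continuousOn
    (smooth_d1 hb (shrinker_smooth σ (64 * R))).continuousOn
  set Qu := max Qu' 1 with hQudef
  set Qd := max Qd' 0 with hQddef
  set ql := σ.q y₁ with hqldef
  have hql : 0 < ql := σ.q_pos y₁ hy₁.1
  set N := max M 1 with hNdef
  have hN : 1 ≤ N := le_max_right _ _
  have hQu1 : 1 ≤ Qu := le_max_right _ _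
  obtain ⟨r, hr, hnear⟩ : ∃ r > 0, ∀ y ∈ Icc (0:ℝ) r, |σ.q y - 1| ≤ 1 / 1000 := by
    have hc : ContinuousWithinAt σ.q (Ici 0) 0 := σ.q_smooth.continuousOn 0 (by simp)
    rw [Metric.continuousWithinAt_iff] at hc
    obtain ⟨d, hd, hd'⟩ := hc (1 / 1000) (by norm_num)
    refine ⟨d / 2, half_pos hd, fun y hy => ?_⟩
    have h2 := hd' (show y ∈ Ici 0 from hy.1)
      (by rw [Real.dist_eq, sub_zero, abs_of_nonneg hy.1]; linarith [hy.2])
    rw [Real.dist_eq, σ.q_zero] at h2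
    exact h2.le
  refine ⟨4 * N ^ 3 * Qu ^ 2 + 2 * N ^ 3 + 2 * N * Qd ^ 2, min r 1, ql ^ 2 / N ^ 2, by positivity,
    lt_min hr one_pos, min_le_right _ _, by positivity, fun Φ hΦ => ?_⟩
  set M' := 4 * N ^ 3 * Qu ^ 2 + 2 * N ^ 3 + 2 * N * Qd ^ 2
  have hF : ∀ y ∈ Icc 0 (64 * R), ql * y ≤ y * σ.q y ∧ y * σ.q y ≤ Qu * y := fun y hy => by
    constructor
    · rw [mul_comm y]
      exact mul_le_mul_of_nonneg_right (hmin hy) hy.1
    · rw [mul_comm y]
      exact mul_le_mul_of_nonneg_right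
        ((le_abs_self _).trans ((hQu y hy).trans (le_max_left _ _))) hy.1
  have hP : ∀ y ∈ Icc 0 (64 * R), 0 ≤ Φ y ∧ y * σ.q y ≤ N * Φ y ∧ Φ y ≤ N * (y * σ.q y) :=
    fun y hy => by
    rcases eq_or_lt_of_le hy.1 with h | h
    · subst h
      simp [hΦ.zero]
    · have hp := hΦ.pos y ⟨h, hy.2⟩
      have hf : 0 ≤ y * σ.q y := mul_nonneg hy.1 (σ.q_pos y hy.1).le
      exact ⟨hp.le,
        (hΦ.lower y ⟨h, hy.2⟩).trans (mul_le_mul_of_nonneg_right (le_max_left _ _) hp.le),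
        (hΦ.upper y ⟨h, hy.2⟩).trans (mul_le_mul_of_nonneg_right (le_max_left _ _) hf)⟩
  refine ⟨fun Y δ hδ hY => ?_, fun y hy => ?_⟩
  · have hsub : ∀ {y}, y ∈ Icc 0 Y → y ∈ Icc 0 (64 * R) := fun h => ⟨h.1, h.2.trans hY⟩
    have hsub' : ∀ {y}, y ∈ Ioo 0 Y → y ∈ Ioo 0 (64 * R) := fun h => ⟨h.1, h.2.trans_le hY⟩
    have hsm := hΦ.smooth.mono (show Icc 0 Y ⊆ Icc 0 (64 * R) from fun _ h => hsub h)
    have near : ∀ y ∈ Icc 0 δ, 999 / 1000 * y ≤ y * σ.q y ∧ y * σ.q y ≤ 1001 / 1000 * y ∧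
        |Φ y - y * σ.q y| ≤ y * σ.q y / 1000 := fun y hy => by
      have hy' : y ≤ min r 1 := hy.2.trans hδ
      have h := abs_le.1 (hnear y ⟨hy.1, hy'.trans (min_le_left _ _)⟩)
      refine ⟨by nlinarith [hy.1], by nlinarith [hy.1], ?_⟩
      rcases eq_or_lt_of_le hy.1 with h0 | h0
      · subst h0
        simp [hΦ.zero]
      · exact hΦ.cap y ⟨h0, lt_of_le_of_lt (hy'.trans (min_le_right _ _)) (by linarith)⟩
    refine ⟨⟨hsm.mul (shrinker_smooth σ Y), fun y hy => ?_, fun y hy => ?_, fun y hy => ?_,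
        fun y hy => ?_⟩,
      ⟨hsm.mul hsm, fun y hy => ?_, fun y hy => ?_, fun y hy => ?_, fun y hy => ?_⟩⟩
    · exact mul_pos (hΦ.pos y ⟨hy.1, (hsub' hy).2.le⟩) (mul_pos hy.1 (σ.q_pos y hy.1.le))
    · obtain ⟨h0, h1, h2⟩ := hP y (hsub hy)
      obtain ⟨f1, f2⟩ := hF y (hsub hy)
      have f0 : 0 ≤ y * σ.q y := mul_nonneg hy.1 (σ.q_pos y hy.1).le
      have hQy : 0 ≤ N * (Qu * y) :=
        mul_nonneg (by linarith) (mul_nonneg (by linarith) hy.1)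
      calc Φ y * (y * σ.q y) ≤ N * (y * σ.q y) * (y * σ.q y) := by gcongr
        _ ≤ N * (Qu * y) * (Qu * y) := by gcongr
        _ = N * Qu ^ 2 * y ^ 2 := by ring
        _ ≤ M' * y ^ 2 := by
            refine mul_le_mul_of_nonneg_right ?_ (sq_nonneg y)
            have hc : N ≤ N ^ 3 := le_self_pow₀ hN (by norm_num)
            have : N * Qu ^ 2 ≤ 4 * N ^ 3 * Qu ^ 2 := by
              refine mul_le_mul_of_nonneg_right ?_ (sq_nonneg _)
              linarith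
            have : 0 ≤ 2 * N ^ 3 + 2 * N * Qd ^ 2 := by positivity
            linarith
    · obtain ⟨h0, h1, h2⟩ := hP y (Ioo_subset_Icc_self (hsub' hy))
      have hd : |deriv Φ y| ≤ N := (hΦ.slope y (hsub' hy)).trans (le_max_left _ _)
      have hFd : |deriv (fun z => z * σ.q z) y| ≤ Qd := by
        rw [deriv_d1 (shrinker_smooth σ (64 * R)) (hsub' hy)]
        exact (hQd y (Ioo_subset_Icc_self (hsub' hy))).trans (le_max_left _ _)
      have hder := ((hasDerivAt_d1 hΦ.smooth (hsub' hy)).mul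
        (hasDerivAt_d1 (shrinker_smooth σ (64 * R)) (hsub' hy))).deriv
      rw [← deriv_d1 hΦ.smooth (hsub' hy), ← deriv_d1 (shrinker_smooth σ (64 * R)) (hsub' hy)]
        at hder
      refine le_of_eq_of_le (congrArg (fun r : ℝ => r ^ 2) hder) ?_
      have hq0 : 0 ≤ y * σ.q y := mul_nonneg hy.1.le (σ.q_pos y hy.1.le).le
      set p := Φ y
      set f := y * σ.q y
      have h3 : deriv Φ y ^ 2 ≤ N ^ 2 := sq_le_sq' (abs_le.1 hd).1 (abs_le.1 hd).2
      have h4 : deriv (fun z => z * σ.q z) y ^ 2 ≤ Qd ^ 2 :=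
        sq_le_sq' (abs_le.1 hFd).1 (abs_le.1 hFd).2
      have a1 : f ^ 2 ≤ N * (p * f) := by nlinarith [mul_le_mul_of_nonneg_right h1 hq0]
      have a2 : p ^ 2 ≤ N * (p * f) := by nlinarith [mul_le_mul_of_nonneg_left h2 h0]
      calc (deriv Φ y * f + p * deriv (fun z => z * σ.q z) y) ^ 2
          ≤ 2 * (deriv Φ y ^ 2 * f ^ 2) + 2 * (p ^ 2 * deriv (fun z => z * σ.q z) y ^ 2) := by
            nlinarith [sq_nonneg (deriv Φ y * f - p * deriv (fun z => z * σ.q z) y)]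
        _ ≤ 2 * (N ^ 2 * (N * (p * f))) + 2 * (N * (p * f) * Qd ^ 2) := by gcongr
        _ = (2 * N ^ 3 + 2 * N * Qd ^ 2) * (p * f) := by ring
        _ ≤ M' * (p * f) := by
            refine mul_le_mul_of_nonneg_right ?_ (mul_nonneg h0 hq0)
            have : 0 ≤ 4 * N ^ 3 * Qu ^ 2 := by positivity
            linarith
    · obtain ⟨f1, f2, f3⟩ := near y hy
      have := abs_le.1 f3
      rw [abs_le]
      constructor <;> nlinarith [hy.1]
    · exact mul_pos (hΦ.pos y ⟨hy.1, (hsub' hy).2.le⟩) (hΦ.pos y ⟨hy.1, (hsub' hy).2.le⟩)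
    · obtain ⟨h0, h1, h2⟩ := hP y (hsub hy)
      obtain ⟨f1, f2⟩ := hF y (hsub hy)
      have f0 : 0 ≤ y * σ.q y := mul_nonneg hy.1 (σ.q_pos y hy.1).le
      have hQy : 0 ≤ N * (Qu * y) :=
        mul_nonneg (by linarith) (mul_nonneg (by linarith) hy.1)
      calc Φ y * Φ y ≤ (N * (y * σ.q y)) * (N * (y * σ.q y)) := by gcongr
        _ ≤ (N * (Qu * y)) * (N * (Qu * y)) := by gcongr
        _ = N ^ 2 * Qu ^ 2 * y ^ 2 := by ring
        _ ≤ M' * y ^ 2 := by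
            refine mul_le_mul_of_nonneg_right ?_ (sq_nonneg y)
            have hc : N ^ 2 ≤ N ^ 3 := pow_le_pow_right₀ hN (by norm_num)
            have : N ^ 2 * Qu ^ 2 ≤ 4 * N ^ 3 * Qu ^ 2 := by
              refine mul_le_mul_of_nonneg_right ?_ (sq_nonneg _)
              nlinarith
            have : 0 ≤ 2 * N ^ 3 + 2 * N * Qd ^ 2 := by positivity
            linarith
    · obtain ⟨h0, h1, h2⟩ := hP y (Ioo_subset_Icc_self (hsub' hy))
      have hd : |deriv Φ y| ≤ N := (hΦ.slope y (hsub' hy)).trans (le_max_left _ _)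
      have hder := ((hasDerivAt_d1 hΦ.smooth (hsub' hy)).mul
        (hasDerivAt_d1 hΦ.smooth (hsub' hy))).deriv
      rw [← deriv_d1 hΦ.smooth (hsub' hy)] at hder
      refine le_of_eq_of_le (congrArg (fun r : ℝ => r ^ 2) hder) ?_
      have h3 : deriv Φ y ^ 2 ≤ N ^ 2 := sq_le_sq' (abs_le.1 hd).1 (abs_le.1 hd).2
      calc (deriv Φ y * Φ y + Φ y * deriv Φ y) ^ 2 = 4 * deriv Φ y ^ 2 * (Φ y * Φ y) := by ring
        _ ≤ 4 * N ^ 2 * (Φ y * Φ y) := by gcongr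
        _ ≤ M' * (Φ y * Φ y) := by
            refine mul_le_mul_of_nonneg_right ?_ (mul_nonneg h0 h0)
            have : N ^ 2 ≤ N ^ 3 * Qu ^ 2 := by
              calc N ^ 2 = N ^ 2 * 1 := by ring
                _ ≤ N ^ 3 * Qu ^ 2 := mul_le_mul (pow_le_pow_right₀ hN (by norm_num))
                    (one_le_pow₀ hQu1) zero_le_one (by positivity)
            have : 0 ≤ 2 * N ^ 3 + 2 * N * Qd ^ 2 := by positivity
            nlinarith
    · obtain ⟨f1, f2, f3⟩ := near y hy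
      have := abs_le.1 f3
      rw [abs_le]
      constructor <;> nlinarith [hy.1]
  · obtain ⟨h0, h1, h2⟩ := hP y hy
    obtain ⟨f1, f2⟩ := hF y hy
    have g : ql * y ≤ N * Φ y := f1.trans h1
    have hy0 : 0 ≤ ql * y := mul_nonneg hql.le hy.1
    have g2 : ql * y ≤ N * (y * σ.q y) := f1.trans (le_mul_of_one_le_left (hy0.trans f1) hN)
    constructor
    · have := mul_le_mul g g2 hy0 (mul_nonneg (by linarith) h0)
      rw [div_mul_eq_mul_div, div_le_iff₀ (by positivity)]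
      nlinarith
    · have := mul_le_mul g g hy0 (mul_nonneg (by linarith) h0)
      rw [div_mul_eq_mul_div, div_le_iff₀ (by positivity)]
      nlinarith

end Vale.Agent.P264.Inner
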