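import Vale.Agent.P264.Inner.Core
import Vale.Agent.P264.Inner.Prof

/-!
The static setting of the inner module: one time slice, the three cutoffs and the constants.
-/

namespace Vale.Agent.P264.Inner

open Set Filter MeasureTheory
open scoped ContDiff Topology

/-- Cutoff equal to `1` on `[0, 32 R]`. -/
noncomputable def th0 (R : ℝ) : ℝ → ℝ := cut (32 * R)

/-- Coefficient of the equation for the potential. -/
noncomputable def coef0 (σ : Shrinker) (Φ : ℝ → ℝ) (y : ℝ) : ℝ := Φ y * (y * σ.q y)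

/-- Coefficient of the equations for the time derivatives. -/
noncomputable def coef1 (Φ : ℝ → ℝ) (y : ℝ) : ℝ := Φ y * Φ y

/-- One time slice of the rescaled flow on `[0, 64 R]`. -/
structure Slice (σ : Shrinker) (R M : ℝ) (Φ V Z1 Z2 : ℝ → ℝ) : Prop where
  prof : Prof σ R M Φ
  smV : ContDiffOn ℝ ∞ V (Icc 0 (64 * R))
  sm1 : ContDiffOn ℝ ∞ Z1 (Icc 0 (64 * R))
  sm2 : ContDiffOn ℝ ∞ Z2 (Icc 0 (64 * R))
  second : ∀ y ∈ Ioo 0 (64 * R), y * σ.q y - Φ y = coef0 σ Φ y * d2 (64 * R) V y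
  eq1 : ∀ y ∈ Ioo 0 (64 * R), Z1 y = cdrift (64 * R) V y - dst (fun z => z * σ.q z - Φ z) y
  eq2 : ∀ y ∈ Ioo 0 (64 * R),
    Z2 y = cdrift (64 * R) Z1 y - dst (fun z => coef1 Φ z * d2 (64 * R) Z1 z) y

/-- The squared size of a slice. -/
noncomputable def size (R : ℝ) (V Z1 Z2 : ℝ → ℝ) : ℝ :=
  wsq 5 0 (fun _ => 1) (64 * R) V + wsq 5 8 (th1 R) (32 * R) Z1 + wsq 5 8 (th2 R) (16 * R) Z2

theorem size_nonneg {R : ℝ} (hR : 0 ≤ R) (V Z1 Z2 : ℝ → ℝ) :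
    0 ≤ wsq 5 0 (fun _ => 1) (64 * R) V ∧ 0 ≤ wsq 5 8 (th1 R) (32 * R) Z1 ∧
      0 ≤ wsq 5 8 (th2 R) (16 * R) Z2 :=
  ⟨wsq_nonneg (by positivity) (fun _ => zero_le_one),
    wsq_nonneg (by positivity) (cut_nonneg _), wsq_nonneg (by positivity) (cut_nonneg _)⟩

/-- All coefficient and cutoff hypotheses, with fixed constants. -/
structure Box (σ : Shrinker) (R M δ M' G m : ℝ) : Prop where
  δ_pos : 0 < δ
  δ_le : δ ≤ 1
  M_nonneg : 0 ≤ M'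
  G_nonneg : 0 ≤ G
  m_pos : 0 < m
  R_one : 1 ≤ R
  coef : ∀ Φ, Prof σ R M Φ → ∀ Y, Y ≤ 64 * R →
    Coef Y M' δ (coef0 σ Φ) ∧ Coef Y M' δ (coef1 Φ) ∧
      ∀ y ∈ Icc 0 Y, m * y ^ 2 ≤ coef0 σ Φ y ∧ m * y ^ 2 ≤ coef1 Φ y
  cuts : ∀ Y, Y ≤ 64 * R → Cut Y G δ (th0 R) ∧ Cut Y G δ (th1 R) ∧ Cut Y G δ (th2 R)

theorem exists_box (σ : Shrinker) (R M δ₀ : ℝ) (hR : 1 ≤ R) (hδ₀ : 0 < δ₀) :
    ∃ δ M' G m : ℝ, δ ≤ δ₀ ∧ Box σ R M δ M' G m := by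
  obtain ⟨M', δ₁, m, hM', hδ₁, hδ₁1, hm, hc⟩ := prof_coef σ R M hR
  obtain ⟨G0, hG0, h0⟩ := cut_Cut (k := 32 * R) (by positivity) (64 * R)
  obtain ⟨G1, hG1, h1⟩ := cut_Cut (k := 16 * R) (by positivity) (64 * R)
  obtain ⟨G2, hG2, h2⟩ := cut_Cut (k := 8 * R) (by positivity) (64 * R)
  refine ⟨min δ₀ δ₁, M', G0 + G1 + G2, m, min_le_left _ _, lt_min hδ₀ hδ₁,
    (min_le_right _ _).trans hδ₁1, hM'.le, by linarith, hm, hR, fun Φ hΦ Y hY => ?_,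
    fun Y hY => ?_⟩
  · obtain ⟨ha, hb⟩ := hc Φ hΦ
    obtain ⟨k0, k1⟩ := ha Y (min δ₀ δ₁) (min_le_right _ _) hY
    exact ⟨k0, k1, fun y hy => hb y ⟨hy.1, hy.2.trans hY⟩⟩
  · have hmono : ∀ {κ : ℝ → ℝ} {g : ℝ}, Cut Y g (min δ₀ δ₁) κ → g ≤ G0 + G1 + G2 →
        Cut Y (G0 + G1 + G2) (min δ₀ δ₁) κ := fun h hg =>
      ⟨h.smooth, h.nonneg, h.le_one, h.flat,
        fun y hy => (h.d1 y hy).trans (div_le_div_of_nonneg_right hg (by linarith [hy.1])),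
        fun y hy => (h.d2 y hy).trans (div_le_div_of_nonneg_right hg (sq_nonneg _))⟩
    have hδ : min δ₀ δ₁ ≤ 8 * R := ((min_le_right _ _).trans hδ₁1).trans (by linarith)
    exact ⟨hmono (h0 Y _ hY (by linarith)) (by linarith),
      hmono (h1 Y _ hY (by linarith)) (by linarith), hmono (h2 Y _ hY hδ) (by linarith)⟩

variable {b Y : ℝ} {U : ℝ → ℝ}

theorem d1_restrict (hYb : Y ≤ b) (hU : ContDiffOn ℝ ∞ U (Icc 0 b)) {y : ℝ}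
    (hy : y ∈ Ioo 0 Y) : d1 Y U y = d1 b U y :=
  (deriv_d1 (hU.mono (Icc_subset_Icc le_rfl hYb)) hy).symm.trans
    (deriv_d1 hU ⟨hy.1, hy.2.trans_le hYb⟩)

theorem d2_restrict (hYb : Y ≤ b) (hU : ContDiffOn ℝ ∞ U (Icc 0 b)) {y : ℝ}
    (hy : y ∈ Ioo 0 Y) : d2 Y U y = d2 b U y := by
  have hY : 0 < Y := hy.1.trans hy.2
  exact (deriv_d2 hY (hU.mono (Icc_subset_Icc le_rfl hYb)) hy).symm.trans
    (deriv_d2 (hY.trans_le hYb) hU ⟨hy.1, hy.2.trans_le hYb⟩)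

theorem cdrift_restrict (hYb : Y ≤ b) (hU : ContDiffOn ℝ ∞ U (Icc 0 b)) {y : ℝ}
    (hy : y ∈ Ioo 0 Y) : cdrift Y U y = cdrift b U y := by
  simp only [cdrift, d1_restrict hYb hU hy]

variable {σ : Shrinker} {R M : ℝ} {Φ V Z1 Z2 : ℝ → ℝ}

theorem Slice.eq1' (h : Slice σ R M Φ V Z1 Z2) (hY : Y ≤ 64 * R) {y : ℝ} (hy : y ∈ Ioo 0 Y) :
    Z1 y = cdrift Y V y - dst (fun z => coef0 σ Φ z * d2 Y V z) y := by
  have hy' : y ∈ Ioo 0 (64 * R) := ⟨hy.1, hy.2.trans_le hY⟩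
  rw [h.eq1 y hy', cdrift_restrict hY h.smV hy]
  congr 1
  refine dst_congr_Ioo (fun z hz => ?_) hy
  rw [h.second z ⟨hz.1, hz.2.trans_le hY⟩, d2_restrict hY h.smV hz]

theorem Slice.eq2' (h : Slice σ R M Φ V Z1 Z2) (hY : Y ≤ 64 * R) {y : ℝ} (hy : y ∈ Ioo 0 Y) :
    Z2 y = cdrift Y Z1 y - dst (fun z => coef1 Φ z * d2 Y Z1 z) y := by
  have hy' : y ∈ Ioo 0 (64 * R) := ⟨hy.1, hy.2.trans_le hY⟩
  rw [h.eq2 y hy', cdrift_restrict hY h.sm1 hy]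
  congr 1
  exact dst_congr_Ioo (fun z hz => by rw [d2_restrict hY h.sm1 hz]) hy

theorem Slice.mono (h : Slice σ R M Φ V Z1 Z2) (hY : Y ≤ 64 * R) :
    ContDiffOn ℝ ∞ V (Icc 0 Y) ∧ ContDiffOn ℝ ∞ Z1 (Icc 0 Y) ∧ ContDiffOn ℝ ∞ Z2 (Icc 0 Y) ∧
      ContDiffOn ℝ ∞ Φ (Icc 0 Y) :=
  ⟨h.smV.mono (Icc_subset_Icc le_rfl hY), h.sm1.mono (Icc_subset_Icc le_rfl hY),
    h.sm2.mono (Icc_subset_Icc le_rfl hY), h.prof.smooth.mono (Icc_subset_Icc le_rfl hY)⟩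

theorem th_one {R y : ℝ} (hR : 0 < R) :
    (y ≤ 32 * R → th0 R y = 1) ∧ (y ≤ 16 * R → th1 R y = 1) ∧ (y ≤ 8 * R → th2 R y = 1) :=
  ⟨fun h => cut_one (by positivity) h, fun h => cut_one (by positivity) h,
    fun h => cut_one (by positivity) h⟩

theorem th_zero {R : ℝ} (hR : 0 < R) :
    (∀ y, 64 * R ≤ y → th0 R y = 0) ∧ (∀ y, 32 * R ≤ y → th1 R y = 0) ∧
      (∀ y, 16 * R ≤ y → th2 R y = 0) :=
  ⟨fun y h => cut_zero (by positivity) (by linarith),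
    fun y h => cut_zero (by positivity) (by linarith),
    fun y h => cut_zero (by positivity) (by linarith)⟩

theorem wsq_le_of_le {Y₁ Y₂ : ℝ} (hY₁ : 0 ≤ Y₁) (hY : Y₁ ≤ Y₂) {p q : ℕ} {κ θ U : ℝ → ℝ}
    (hκ : Continuous κ) (hθ : Continuous θ) (hθ0 : ∀ y, 0 ≤ θ y)
    (hU : ContinuousOn U (Icc 0 Y₂)) (h : ∀ y, 0 ≤ y → κ y ^ p ≤ θ y ^ q) :
    wsq 5 p κ Y₁ U ≤ wsq 5 q θ Y₂ U := by
  have cκ := hκ.continuousOn (s := Icc 0 Y₂)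
  have cθ := hθ.continuousOn (s := Icc 0 Y₂)
  have cρ := (continuous_rho 5).continuousOn (s := Icc 0 Y₂)
  have hsub : Icc 0 Y₁ ⊆ Icc 0 Y₂ := Icc_subset_Icc le_rfl hY
  have c1 : ContinuousOn (fun y => κ y ^ p * rho 5 y * U y ^ 2) (Icc 0 Y₂) := by fun_prop
  have c2 : ContinuousOn (fun y => θ y ^ q * rho 5 y * U y ^ 2) (Icc 0 Y₂) := by fun_prop
  refine (integral_le hY₁ (II.of_cont hY₁ (c1.mono hsub)) (II.of_cont hY₁ (c2.mono hsub))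
    (fun y hy => ?_)).trans ?_
  · exact mul_le_mul_of_nonneg_right (mul_le_mul_of_nonneg_right (h y hy.1.le)
      (rho_nonneg 5 hy.1.le)) (sq_nonneg _)
  · refine intervalIntegral.integral_mono_interval le_rfl hY₁ hY ?_
      (II.of_cont (hY₁.trans hY) c2)
    refine (ae_restrict_iff' measurableSet_Ioc).2 (ae_of_all _ fun z hz => ?_)
    have := hθ0 z
    have := rho_nonneg 5 hz.1.le
    simp only [Pi.zero_apply]
    positivity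

end Vale.Agent.P264.Inner
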