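import Vale.Agent.P264.Inner.Targets
import Vale.Agent.P264.Dict.Targets
import Vale.Agent.P264.Middle.Targets
import Vale.Agent.P264.Inner.Setting
import Vale.Agent.P264.Inner.Evolve
import Vale.Agent.P264.Inner.Hierarchy

/-!
The fields of a rescaled flow on `s ≥ 0`, `0 ≤ y ≤ 64 R`, and their equations.
-/

namespace Vale.Agent.P264.Inner

open Set Filter MeasureTheory
open scoped ContDiff Topology

/-- The standing hypotheses on a flow, a potential and `R`. -/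
structure Setup (σ : Shrinker) (L R : ℝ) (φ₀ : ℝ → ℝ) (φ w : ℝ → ℝ → ℝ) : Prop where
  R_pos : 0 < R
  fits : 64 * R < L / 4
  flow : IsFlow L 1 φ₀ φ
  rel : RelPot σ L φ w
  exact0 : ∀ t ∈ Ico (0:ℝ) 1, ∀ x ∈ Ioo 0 L, x < L / 4 → fRef σ L t x = 0

variable {σ : Shrinker} {L R : ℝ} {φ₀ : ℝ → ℝ} {φ w : ℝ → ℝ → ℝ}

theorem Setup.L_pos (h : Setup σ L R φ₀ φ w) : 0 < L := by linarith [h.R_pos, h.fits]

theorem Setup.b_pos (h : Setup σ L R φ₀ φ w) : 0 < 64 * R := by linarith [h.R_pos]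

theorem tof_mem {s : ℝ} (hs : 0 ≤ s) : tof s ∈ Ico (0:ℝ) 1 := by
  have h1 : Real.exp (-s) ≤ 1 := Real.exp_le_one_iff.2 (by linarith)
  have h2 := Real.exp_pos (-s)
  exact ⟨by rw [tof]; linarith, by rw [tof]; linarith⟩

theorem sqrt_tof (s : ℝ) : Real.sqrt (1 - tof s) = Real.exp (-s / 2) := by
  rw [tof, sub_sub_cancel, Real.sqrt_eq_rpow, ← Real.exp_mul]
  ring_nf

theorem exp_half_mul (s : ℝ) : Real.exp (s / 2) * Real.exp (-s / 2) = 1 := by
  rw [← Real.exp_add, show s / 2 + -s / 2 = 0 by ring, Real.exp_zero]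

theorem Setup.pos_mem (h : Setup σ L R φ₀ φ w) {s y : ℝ} (hs : 0 ≤ s)
    (hy : y ∈ Icc 0 (64 * R)) :
    Real.exp (-s / 2) * y ∈ Icc 0 L ∧ Real.exp (-s / 2) * y ≤ y ∧
      Real.exp (-s / 2) * y < L / 4 := by
  have h1 : Real.exp (-s / 2) ≤ 1 := Real.exp_le_one_iff.2 (by linarith)
  have h2 := (Real.exp_pos (-s / 2)).le
  have h3 : Real.exp (-s / 2) * y ≤ y := mul_le_of_le_one_left hy.1 h1
  have := h.fits
  have := h.L_pos
  exact ⟨⟨mul_nonneg h2 hy.1, by linarith [hy.2]⟩, h3, by linarith [hy.2]⟩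

theorem Setup.pos_mem' (h : Setup σ L R φ₀ φ w) {s y : ℝ} (hs : 0 ≤ s)
    (hy : y ∈ Ioo 0 (64 * R)) : Real.exp (-s / 2) * y ∈ Ioo 0 L := by
  obtain ⟨h1, h2, h3⟩ := h.pos_mem hs (Ioo_subset_Icc_self hy)
  exact ⟨mul_pos (Real.exp_pos _) hy.1, by linarith [h.L_pos]⟩

theorem Setup.y_mem (h : Setup σ L R φ₀ φ w) {s y : ℝ} (hs : 0 ≤ s)
    (hy : y ∈ Ioc 0 (64 * R)) : y ∈ Ioo 0 (Ys L s) := by
  have h1 : L ≤ Ys L s := le_mul_of_one_le_right h.L_pos.le (Real.one_le_exp (by linarith))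
  exact ⟨hy.1, by linarith [hy.2, h.fits, h.L_pos]⟩

theorem contDiff_physical : ContDiff ℝ ∞ (fun p : ℝ × ℝ => (tof p.1, Real.exp (-p.1 / 2) * p.2)) := by
  unfold tof
  fun_prop

theorem contDiff_exp_half : ContDiff ℝ ∞ (fun p : ℝ × ℝ => Real.exp (p.1 / 2)) := by fun_prop

theorem Setup.fld_prof (h : Setup σ L R φ₀ φ w) : Fld (64 * R) (rprof φ) :=
  contDiff_exp_half.contDiffOn.mul (h.flow.smooth.comp contDiff_physical.contDiffOn
    (fun p hp => (⟨⟨(tof_mem hp.1).1, (tof_mem hp.1).2.le⟩, (h.pos_mem hp.1 hp.2).1⟩ :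
      (tof p.1, Real.exp (-p.1 / 2) * p.2) ∈ Icc 0 1 ×ˢ Icc 0 L)))

theorem Setup.fld_snap (h : Setup σ L R φ₀ φ w) : Fld (64 * R) (snap w) :=
  contDiff_exp_half.contDiffOn.mul (h.rel.pot.smooth.comp contDiff_physical.contDiffOn
    (fun p hp => (⟨tof_mem hp.1, (h.pos_mem hp.1 hp.2).1⟩ :
      (tof p.1, Real.exp (-p.1 / 2) * p.2) ∈ Ico 0 1 ×ˢ Icc 0 L)))

/-- `yq - Φ` as a field. -/
noncomputable def gap (σ : Shrinker) (φ : ℝ → ℝ → ℝ) (s y : ℝ) : ℝ := y * σ.q y - rprof φ s y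

theorem Setup.fld_gap (h : Setup σ L R φ₀ φ w) : Fld (64 * R) (gap σ φ) := by
  have hq : ContDiffOn ℝ ∞ (fun p : ℝ × ℝ => p.2 * σ.q p.2) (strip (64 * R)) :=
    contDiff_snd.contDiffOn.mul (σ.q_smooth.comp contDiff_snd.contDiffOn (fun p hp => hp.2.1))
  exact hq.sub h.fld_prof

theorem Setup.ref_eq (h : Setup σ L R φ₀ φ w) {s y : ℝ} (hs : 0 ≤ s)
    (hy : y ∈ Icc 0 (64 * R)) : rprof (phiRef σ L) s y = y * σ.q y := by
  have h3 := (h.pos_mem hs hy).2.2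
  rw [rprof, phiRef, if_pos h3.le, sqrt_tof,
    mul_div_cancel_left₀ y (Real.exp_pos (-s / 2)).ne', ← mul_assoc, ← mul_assoc, exp_half_mul,
    one_mul]

theorem Setup.second' (h : Setup σ L R φ₀ φ w) {s y : ℝ} (hs : 0 ≤ s)
    (hy : y ∈ Ioo 0 (64 * R)) :
    0 < rprof φ s y ∧ d2 (64 * R) (snap w s) y = 1 / rprof φ s y - 1 / (y * σ.q y) := by
  have hp := (h.flow.profile (tof s) ⟨(tof_mem hs).1, (tof_mem hs).2.le⟩).pos _ (h.pos_mem' hs hy)
  refine ⟨mul_pos (Real.exp_pos _) hp, ?_⟩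
  have e := exp_half_mul s
  have h1 : deriv (snap w s) =
      fun z => deriv (w (tof s)) (Real.exp (-s / 2) * z) := funext fun z => by
    unfold snap
    rw [deriv_const_mul_field, deriv_comp_mul_left, smul_eq_mul, ← mul_assoc, e, one_mul]
  rw [← deriv_d2 h.b_pos (h.fld_snap.slice hs) hy, h1, deriv_comp_mul_left, smul_eq_mul,
    h.rel.second (tof s) (tof_mem hs) _ (h.pos_mem' hs hy),
    ← h.ref_eq hs (Ioo_subset_Icc_self hy)]
  have e' : Real.exp (-s / 2) = (Real.exp (s / 2))⁻¹ :=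
    eq_inv_of_mul_eq_one_right (exp_half_mul s)
  unfold rprof
  rw [e']
  field_simp

theorem Setup.second (h : Setup σ L R φ₀ φ w) {s y : ℝ} (hs : 0 ≤ s)
    (hy : y ∈ Ioo 0 (64 * R)) :
    gap σ φ s y = coef0 σ (rprof φ s) y * d2 (64 * R) (snap w s) y := by
  obtain ⟨hp, h2⟩ := h.second' hs hy
  have hF : 0 < y * σ.q y := mul_pos hy.1 (σ.q_pos y hy.1.le)
  rw [h2, coef0, gap]
  have hp0 := hp.ne'
  have hF0 := hF.ne'
  rw [mul_sub, mul_one_div, mul_one_div, mul_div_cancel_left₀ _ hp0, mul_div_cancel_right₀ _ hF0]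

/-- First time derivative field. -/
noncomputable def Z1f (R : ℝ) (w : ℝ → ℝ → ℝ) : ℝ → ℝ → ℝ := dS (64 * R) (snap w)

/-- Second time derivative field. -/
noncomputable def Z2f (R : ℝ) (w : ℝ → ℝ → ℝ) : ℝ → ℝ → ℝ := dS (64 * R) (Z1f R w)

/-- Third time derivative field. -/
noncomputable def Z3f (R : ℝ) (w : ℝ → ℝ → ℝ) : ℝ → ℝ → ℝ := dS (64 * R) (Z2f R w)

theorem Setup.fld_Z (h : Setup σ L R φ₀ φ w) :
    Fld (64 * R) (Z1f R w) ∧ Fld (64 * R) (Z2f R w) ∧ Fld (64 * R) (Z3f R w) :=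
  ⟨h.fld_snap.dS h.b_pos, (h.fld_snap.dS h.b_pos).dS h.b_pos,
    ((h.fld_snap.dS h.b_pos).dS h.b_pos).dS h.b_pos⟩

theorem Setup.zOne_eq (h : Setup σ L R φ₀ φ w) {s y : ℝ} (hs : 0 ≤ s)
    (hy : y ∈ Icc 0 (64 * R)) : zOne w s y = Z1f R w s y ∧ zTwo w s y = Z2f R w s y := by
  refine ⟨h.fld_snap.derivWithin_dS hs hy, ?_⟩
  rw [zTwo, derivWithin_congr
    (show EqOn (fun r => zOne w r y) (fun r => Z1f R w r y) (Ici 0) from
      fun r hr => h.fld_snap.derivWithin_dS hr hy) (h.fld_snap.derivWithin_dS hs hy)]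
  exact h.fld_Z.1.derivWithin_dS hs hy

theorem Setup.eq1 (hSn : Dict.SnapEqnTarget) (h : Setup σ L R φ₀ φ w) {s y : ℝ} (hs : 0 ≤ s)
    (hy : y ∈ Ioo 0 (64 * R)) :
    Z1f R w s y = cdrift (64 * R) (snap w s) y - dst (gap σ φ s) y := by
  have hy' := Ioo_subset_Icc_self hy
  refine eqOn_zero _ _ (h.fld_Z.1.cont_time hy')
    ((continuousOn_cdrift h.b_pos h.fld_snap hy).sub (continuousOn_dst h.b_pos h.fld_gap hy))
    (fun r hr => ?_) hs
  have hr0 : (0:ℝ) < r := hr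
  have heq := hSn L _ _ w h.L_pos h.rel.pot r hr0 y (h.y_mem hr0.le ⟨hy.1, hy.2.le⟩)
  rw [(h.fld_snap.hasDerivAt_dS hr0 hy').deriv,
    h.exact0 (tof r) (tof_mem hr0.le) _ (h.pos_mem' hr0.le hy) (h.pos_mem hr0.le hy').2.2,
    mul_zero, add_zero, drift_eq (h.fld_snap.slice hr0.le) hy] at heq
  refine heq.trans (congrArg (fun z => cdrift (64 * R) (snap w r) y - z) (dst_congr_Ioo ?_ hy))
  intro z hz
  rw [h.second hr0.le hz, deriv_d2 h.b_pos (h.fld_snap.slice hr0.le) hz, coef0]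
  congr 1
  have href := h.ref_eq hr0.le (Ioo_subset_Icc_self hz)
  rw [← href, rprof, rprof, show Real.exp r = Real.exp (r / 2) * Real.exp (r / 2) by
    rw [← Real.exp_add]; ring_nf]
  ring

theorem Setup.prof_time (h : Setup σ L R φ₀ φ w) {s y : ℝ} (hs : 0 < s)
    (hy : y ∈ Ioo 0 (64 * R)) :
    HasDerivAt (fun r => rprof φ r y)
      (-(coef1 (rprof φ s) y * d2 (64 * R) (Z1f R w s) y)) s := by
  obtain ⟨hp, h2⟩ := h.second' hs.le hy
  have hd : HasDerivAt (fun r => d2 (64 * R) (snap w r) y + 1 / (y * σ.q y))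
      (d2 (64 * R) (Z1f R w s) y) s := (hasDerivAt_d2 h.b_pos h.fld_snap hs hy).add_const _
  have hval : d2 (64 * R) (snap w s) y + 1 / (y * σ.q y) = (rprof φ s y)⁻¹ := by
    rw [h2, sub_add_cancel, one_div]
  have hne : d2 (64 * R) (snap w s) y + 1 / (y * σ.q y) ≠ 0 := by
    rw [hval]
    exact inv_ne_zero hp.ne'
  refine ((hd.fun_inv hne).congr_deriv ?_).congr_of_eventuallyEq
    (eventually_of_mem (Ioi_mem_nhds hs) (fun r hr => ?_))
  · rw [hval, coef1]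
    field_simp
  · obtain ⟨hp', h2'⟩ := h.second' (le_of_lt hr) hy
    simp only [h2', sub_add_cancel, one_div, inv_inv]

/-- `Φ^2 Z1''` as a field. -/
noncomputable def fluxF (R : ℝ) (φ w : ℝ → ℝ → ℝ) (s y : ℝ) : ℝ :=
  rprof φ s y * rprof φ s y * dY (64 * R) (dY (64 * R) (Z1f R w)) s y

theorem Setup.fld_flux (h : Setup σ L R φ₀ φ w) : Fld (64 * R) (fluxF R φ w) :=
  (ContDiffOn.mul h.fld_prof h.fld_prof).mul ((h.fld_Z.1.dY h.b_pos).dY h.b_pos)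

theorem Setup.flux_eq (h : Setup σ L R φ₀ φ w) {s y : ℝ} (hs : 0 ≤ s)
    (hy : y ∈ Icc 0 (64 * R)) :
    fluxF R φ w s y = coef1 (rprof φ s) y * d2 (64 * R) (Z1f R w s) y := by
  rw [fluxF, coef1, d2_slice h.b_pos h.fld_Z.1 hs hy]

theorem Setup.eq2 (hSn : Dict.SnapEqnTarget) (h : Setup σ L R φ₀ φ w) {s y : ℝ} (hs : 0 ≤ s)
    (hy : y ∈ Ioo 0 (64 * R)) :
    Z2f R w s y = cdrift (64 * R) (Z1f R w s) y - dst (fluxF R φ w s) y := by
  have hy' := Ioo_subset_Icc_self hy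
  refine eqOn_zero _ _ (h.fld_Z.2.1.cont_time hy')
    ((continuousOn_cdrift h.b_pos h.fld_Z.1 hy).sub (continuousOn_dst h.b_pos h.fld_flux hy))
    (fun r hr => ?_) hs
  have hr0 : (0:ℝ) < r := hr
  have hd := ((hasDerivAt_cdrift h.b_pos h.fld_snap hr0 hy).fun_sub
    (hasDerivAt_dst h.b_pos h.fld_gap hr0 hy)).congr_of_eventuallyEq
    (eventually_of_mem (Ioi_mem_nhds hr0) (fun q hq => h.eq1 hSn (le_of_lt hq) hy))
  refine ((h.fld_Z.1.hasDerivAt_dS hr0 hy').unique hd).trans ?_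
  refine congrArg (fun z => cdrift (64 * R) (Z1f R w r) y - z) (dst_congr_Ioo (fun z hz => ?_) hy)
  rw [h.flux_eq hr0.le (Ioo_subset_Icc_self hz)]
  refine ((h.fld_gap.hasDerivAt_dS hr0 (Ioo_subset_Icc_self hz)).unique
    ((h.prof_time hr0 hz).const_sub (z * σ.q z))).trans ?_
  rw [neg_neg]

theorem Setup.eq3 (hSn : Dict.SnapEqnTarget) (h : Setup σ L R φ₀ φ w) {s y : ℝ} (hs : 0 < s)
    (hy : y ∈ Ioo 0 (64 * R)) :
    Z3f R w s y = cdrift (64 * R) (Z2f R w s) y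
      - dst (fun z => coef1 (rprof φ s) z * d2 (64 * R) (Z2f R w s) z
          + coef1 (rprof φ s) z * forceK R (rprof φ s) (Z1f R w s) z) y := by
  have hy' := Ioo_subset_Icc_self hy
  have hd := ((hasDerivAt_cdrift h.b_pos h.fld_Z.1 hs hy).fun_sub
    (hasDerivAt_dst h.b_pos h.fld_flux hs hy)).congr_of_eventuallyEq
    (eventually_of_mem (Ioi_mem_nhds hs) (fun q hq => h.eq2 hSn (le_of_lt hq) hy))
  refine ((h.fld_Z.2.1.hasDerivAt_dS hs hy').unique hd).trans ?_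
  refine congrArg (fun z => cdrift (64 * R) (Z2f R w s) y - z) (dst_congr_Ioo (fun z hz => ?_) hy)
  have hz' := Ioo_subset_Icc_self hz
  have hp := h.prof_time hs hz
  have hdd := ((hp.fun_mul hp).fun_mul (hasDerivAt_d2 h.b_pos h.fld_Z.1 hs hz)).congr_of_eventuallyEq
    (eventually_of_mem (Ioi_mem_nhds hs) (fun q hq => h.flux_eq (le_of_lt hq) hz'))
  refine ((h.fld_flux.hasDerivAt_dS hs hz').unique hdd).trans ?_
  simp only [coef1, forceK, Z2f]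
  ring

theorem Setup.slice {M η : ℝ} (hSn : Dict.SnapEqnTarget) (h : Setup σ L R φ₀ φ w) {s : ℝ}
    (hs : 0 ≤ s) (hB : Boot σ L R η M φ w s) :
    Slice σ R M (rprof φ s) (snap w s) (Z1f R w s) (Z2f R w s) := by
  have hprof := h.flow.profile (tof s) ⟨(tof_mem hs).1, (tof_mem hs).2.le⟩
  have hb := h.b_pos
  refine ⟨⟨h.fld_prof.slice hs, ?_, fun y hy => ?_, fun y hy => ?_, fun y hy => ?_,
    fun y hy => ?_, hB.cap⟩, h.fld_snap.slice hs, h.fld_Z.1.slice hs, h.fld_Z.2.1.slice hs,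
    fun y hy => h.second hs hy, fun y hy => h.eq1 hSn hs hy, fun y hy => ?_⟩
  · rw [rprof, mul_zero, hprof.left, mul_zero]
  · obtain ⟨h1, h2, h3⟩ := h.pos_mem hs ⟨hy.1.le, hy.2⟩
    exact mul_pos (Real.exp_pos _)
      (hprof.pos _ ⟨mul_pos (Real.exp_pos _) hy.1, by linarith [h.L_pos]⟩)
  · rw [← h.ref_eq hs ⟨hy.1.le, hy.2⟩]
    exact hB.lower y (h.y_mem hs hy)
  · rw [← h.ref_eq hs ⟨hy.1.le, hy.2⟩]
    exact hB.upper y (h.y_mem hs hy)
  · exact hB.slope y (h.y_mem hs ⟨hy.1, hy.2.le⟩)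
  · rw [h.eq2 hSn hs hy]
    congr 1
    exact dst_congr_Ioo (fun z hz => h.flux_eq hs (Ioo_subset_Icc_self hz)) hy

theorem Setup.size_le (h : Setup σ L R φ₀ φ w) {s : ℝ} (hs : 0 ≤ s) :
    wsq 5 0 (fun _ => 1) (64 * R) (snap w s) ≤ normN L w s ∧
      wsq 5 8 (th1 R) (32 * R) (Z1f R w s) + wsq 5 8 (th2 R) (16 * R) (Z2f R w s)
        = normE R w s := by
  have hR := h.R_pos
  constructor
  · have hY : 64 * R ≤ Ys L s := by
      have : L ≤ Ys L s := le_mul_of_one_le_right h.L_pos.le (Real.one_le_exp (by linarith))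
      linarith [h.fits, h.L_pos]
    refine wsq_le_of_le h.b_pos.le hY continuous_const continuous_const (fun _ => zero_le_one) ?_
      (fun y _ => le_rfl)
    have hmap : ∀ y ∈ Icc 0 (Ys L s),
        ((tof s, Real.exp (-s / 2) * y) : ℝ × ℝ) ∈ Ico (0:ℝ) 1 ×ˢ Icc 0 L := fun y hy => by
      refine ⟨tof_mem hs, mul_nonneg (Real.exp_pos _).le hy.1, ?_⟩
      calc Real.exp (-s / 2) * y ≤ Real.exp (-s / 2) * (L * Real.exp (s / 2)) :=
            mul_le_mul_of_nonneg_left hy.2 (Real.exp_pos _).le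
        _ = L := by rw [mul_left_comm, mul_comm (Real.exp (-s / 2)), exp_half_mul, mul_one]
    exact continuousOn_const.mul (h.rel.pot.smooth.continuousOn.comp
      (continuousOn_const.prodMk (continuousOn_const.mul continuousOn_id)) hmap)
  · rw [normE, wsq, wsq, wsq, wsq]
    refine congrArg₂ (· + ·) ?_ ?_
    · refine intervalIntegral.integral_congr_Ioo_of_le (by positivity) (fun y hy => ?_)
      rw [(h.zOne_eq hs ⟨hy.1.le, by linarith [hy.2]⟩).1]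
    · refine intervalIntegral.integral_congr_Ioo_of_le (by positivity) (fun y hy => ?_)
      rw [(h.zOne_eq hs ⟨hy.1.le, by linarith [hy.2]⟩).2]

end Vale.Agent.P264.Inner
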