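import Vale.Agent.P264.Inner.Basic

/-!
Static one-level inequalities of the inner hierarchy.
-/

namespace Vale.Agent.P264.Inner

open Set Filter MeasureTheory
open scoped ContDiff Topology

/-- Dissipation together with the singular part at the origin. -/
noncomputable def tot (δ Y : ℝ) (κ a U : ℝ → ℝ) : ℝ := diss 5 κ Y a U + near δ U

theorem diss_eq {Y : ℝ} (hY : 0 < Y) {κ a U : ℝ → ℝ} (hU : ContDiffOn ℝ ∞ U (Icc 0 Y)) :
    diss 5 κ Y a U = ∫ y in (0:ℝ)..Y, κ y ^ 8 * rho 5 y * (a y * d2 Y U y ^ 2) :=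
  intervalIntegral.integral_congr_Ioo_of_le hY.le (fun y hy => by
    simp only [deriv_d2 hY hU hy])

theorem near_eq {δ Y : ℝ} (hδ : 0 ≤ δ) (hδY : δ ≤ Y) {U : ℝ → ℝ}
    (hU : ContDiffOn ℝ ∞ U (Icc 0 Y)) :
    near δ U = ∫ y in (0:ℝ)..δ, (y ^ 3 * d1 Y U y ^ 2 + y * U y ^ 2) :=
  intervalIntegral.integral_congr_Ioo_of_le hδ (fun y hy => by
    simp only [deriv_d1 hU ⟨hy.1, hy.2.trans_le hδY⟩])

theorem near_nonneg {δ : ℝ} (hδ : 0 ≤ δ) (U : ℝ → ℝ) : 0 ≤ near δ U :=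
  integral_nonneg' hδ (fun y hy => by have := hy.1; positivity)

theorem diss_nonneg {Y M δ : ℝ} (hY : 0 ≤ Y) {κ a U : ℝ → ℝ} (ha : Coef Y M δ a)
    (hκ : ∀ y, 0 ≤ κ y) : 0 ≤ diss 5 κ Y a U :=
  integral_nonneg' hY (fun y hy => by
    have := ha.pos y hy
    have := hκ y
    have := rho_nonneg 5 hy.1.le
    positivity)

theorem wsq_nonneg {Y : ℝ} (hY : 0 ≤ Y) {p : ℕ} {κ U : ℝ → ℝ} (hκ : ∀ y, 0 ≤ κ y) :
    0 ≤ wsq 5 p κ Y U :=
  integral_nonneg' hY (fun y hy => by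
    have := hκ y
    have := rho_nonneg 5 hy.1.le
    positivity)

theorem cut_pow_le {Y G δ : ℝ} {κ : ℝ → ℝ} (hκ : Cut Y G δ κ) {p q : ℕ} (h : q ≤ p) (y : ℝ) :
    κ y ^ p ≤ κ y ^ q :=
  pow_le_pow_of_le_one (hκ.nonneg y) (hκ.le_one y) h

theorem interp_d1 (hIn : Energy.InterpTarget) {M G δ m Y ε : ℝ} (hδ : 0 < δ) (hm : 0 < m)
    (hδY : δ ≤ Y) (hε : 0 < ε) :
    ∃ C : ℝ, 0 < C ∧ ∀ a κ U : ℝ → ℝ, Coef Y M δ a → Cut Y G δ κ → (∀ y, Y ≤ y → κ y = 0) →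
      (∀ y ∈ Icc 0 Y, m * y ^ 2 ≤ a y) → ContDiffOn ℝ ∞ U (Icc 0 Y) →
      (∫ y in (0:ℝ)..Y, κ y ^ 6 * rho 5 y * (y * d1 Y U y) ^ 2)
        ≤ ε * diss 5 κ Y a U + C * wsq 5 4 κ Y U := by
  obtain ⟨C, hC, h⟩ := hIn 5 (by norm_num) (by norm_num) M G δ m Y ε hδ hm hδY hε
  refine ⟨C, hC, fun a κ U ha hκ hz hl hU => ?_⟩
  refine le_of_eq_of_le ?_ (h Y a κ U le_rfl ha hκ hz hl hU)
  exact intervalIntegral.integral_congr_Ioo_of_le (hδ.le.trans hδY) (fun y hy => by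
    simp only [deriv_d1 hU hy])

/-- Pairing with the transport part. -/
theorem drift_bound (hIn : Energy.InterpTarget) {M G δ m Y μ : ℝ} (hδ : 0 < δ) (hm : 0 < m)
    (hδY : δ ≤ Y) (hμ : 0 < μ) :
    ∃ C : ℝ, 0 < C ∧ ∀ a κ U : ℝ → ℝ, Coef Y M δ a → Cut Y G δ κ → (∀ y, Y ≤ y → κ y = 0) →
      (∀ y ∈ Icc 0 Y, m * y ^ 2 ≤ a y) → ContDiffOn ℝ ∞ U (Icc 0 Y) →
      |∫ y in (0:ℝ)..Y, κ y ^ 8 * rho 5 y * U y * cdrift Y U y|
        ≤ μ * diss 5 κ Y a U + C * wsq 5 4 κ Y U := by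
  obtain ⟨C, hC, h⟩ := interp_d1 hIn (M := M) (G := G) (m := m) hδ hm hδY hμ
  refine ⟨C + 2, by linarith, fun a κ U ha hκ hz hl hU => ?_⟩
  have hY : 0 < Y := hδ.trans_le hδY
  have hi := h a κ U ha hκ hz hl hU
  have c1 := (smooth_d1 hY hU).continuousOn
  have c0 := hU.continuousOn
  have cκ := hκ.smooth.continuous.continuousOn (s := Icc 0 Y)
  have cρ := (continuous_rho 5).continuousOn (s := Icc 0 Y)
  have hb : |∫ y in (0:ℝ)..Y, κ y ^ 8 * rho 5 y * U y * cdrift Y U y|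
      ≤ ∫ y in (0:ℝ)..Y, (κ y ^ 6 * rho 5 y * (y * d1 Y U y) ^ 2
          + 2 * (κ y ^ 4 * rho 5 y * U y ^ 2)) := by
    refine (intervalIntegral.abs_integral_le_integral_abs hY.le).trans ?_
    have ccd := (smooth_cdrift hY hU).continuousOn
    refine integral_le hY.le (II.of_cont hY.le (by fun_prop)) (II.of_cont hY.le (by fun_prop))
      (fun y hy => ?_)
    have hr := rho_nonneg 5 hy.1.le
    have hk := hκ.nonneg y
    have h86 : κ y ^ 8 ≤ κ y ^ 6 := cut_pow_le hκ (by norm_num) y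
    have h84 : κ y ^ 8 ≤ κ y ^ 4 := cut_pow_le hκ (by norm_num) y
    have key : |U y * cdrift Y U y| ≤ (y * d1 Y U y) ^ 2 + 2 * U y ^ 2 := by
      rw [abs_le]
      rw [cdrift]
      constructor
      all_goals nlinarith [sq_nonneg (U y - y * d1 Y U y), sq_nonneg (U y + y * d1 Y U y),
        sq_nonneg (U y), sq_nonneg (y * d1 Y U y)]
    rw [mul_assoc (κ y ^ 8 * rho 5 y), abs_mul,
      abs_of_nonneg (mul_nonneg (pow_nonneg hk 8) hr)]
    calc κ y ^ 8 * rho 5 y * |U y * cdrift Y U y|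
        ≤ κ y ^ 8 * rho 5 y * ((y * d1 Y U y) ^ 2 + 2 * U y ^ 2) := by gcongr
      _ = κ y ^ 8 * rho 5 y * (y * d1 Y U y) ^ 2 + 2 * (κ y ^ 8 * rho 5 y * U y ^ 2) := by ring
      _ ≤ _ := by gcongr
  rw [intervalIntegral.integral_add (II.of_cont hY.le (by fun_prop))
    ((II.of_cont hY.le (by fun_prop))), intervalIntegral.integral_const_mul] at hb
  have : (∫ y in (0:ℝ)..Y, κ y ^ 4 * rho 5 y * U y ^ 2) = wsq 5 4 κ Y U := rfl
  rw [this] at hb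
  linarith

theorem loss_le_wsq {Y G δ : ℝ} (hY : 0 ≤ Y) {κ U : ℝ → ℝ} (hκ : Cut Y G δ κ)
    (hU : ContinuousOn U (Icc 0 Y)) : loss 5 κ Y U ≤ wsq 5 4 κ Y U := by
  have cκ := hκ.smooth.continuous.continuousOn (s := Icc 0 Y)
  have cρ := (continuous_rho 5).continuousOn (s := Icc 0 Y)
  refine integral_le hY (II.of_cont hY ?_) (II.of_cont hY (by fun_prop)) (fun y hy => ?_)
  · exact ContinuousOn.div (by fun_prop) (by fun_prop) (fun y _ => by positivity)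
  · have := rho_nonneg 5 hy.1.le
    have := hκ.nonneg y
    exact div_le_self (by positivity) (by nlinarith)

theorem smooth_mul_d2 {Y M δ : ℝ} (hY : 0 < Y) {a U : ℝ → ℝ} (ha : Coef Y M δ a)
    (hU : ContDiffOn ℝ ∞ U (Icc 0 Y)) :
    ContDiffOn ℝ ∞ (fun z => a z * d2 Y U z) (Icc 0 Y) :=
  ha.smooth.mul (smooth_d2 hY hU)

/-- One level: `U_next = drift U - dst (a U'' + F)` loses only a multiple of the norm. -/
theorem core (hCo : Energy.CoerciveTarget) (hFo : Energy.ForcingTarget)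
    (hIn : Energy.InterpTarget) :
    ∃ δ₀ : ℝ, 0 < δ₀ ∧ ∀ M G δ m Y : ℝ, 0 < δ → δ ≤ δ₀ → δ ≤ Y → 0 < m →
      ∃ c C : ℝ, 0 < c ∧ 0 < C ∧ ∀ a κ U Un F K : ℝ → ℝ, Coef Y M δ a → Cut Y G δ κ →
        (∀ y, Y ≤ y → κ y = 0) → κ 0 = 1 → (∀ y ∈ Icc 0 Y, m * y ^ 2 ≤ a y) →
        ContDiffOn ℝ ∞ U (Icc 0 Y) → ContDiffOn ℝ ∞ F (Icc 0 Y) → ContinuousOn K (Icc 0 Y) →
        (∀ y ∈ Icc 0 Y, F y = a y * K y) →
        (∀ y ∈ Ioo 0 Y, Un y = cdrift Y U y - dst (fun z => a z * d2 Y U z + F z) y) →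
        c * tot δ Y κ a U + (∫ y in (0:ℝ)..Y, κ y ^ 8 * rho 5 y * U y * Un y)
          ≤ C * (wsq 5 4 κ Y U + fsq 5 κ Y a K) := by
  obtain ⟨δ₁, hδ₁, hc⟩ := hCo
  obtain ⟨δ₂, hδ₂, hf⟩ := hFo
  refine ⟨min δ₁ δ₂, lt_min hδ₁ hδ₂, fun M G δ m Y hδ hδ0 hδY hm => ?_⟩
  obtain ⟨c, C1, hc0, hC1, hcoer⟩ :=
    hc 5 (by norm_num) (by norm_num) M G δ hδ (hδ0.trans (min_le_left _ _))
  obtain ⟨C2, hC2, hforc⟩ := hf 5 (by norm_num) (by norm_num) M G δ hδ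
    (hδ0.trans (min_le_right _ _)) (c / 4) (by linarith)
  obtain ⟨C3, hC3, hdr⟩ := drift_bound hIn (M := M) (G := G) (m := m) hδ hm hδY
    (show 0 < c / 4 by linarith)
  refine ⟨c / 2, C1 + C2 + C3, by linarith, by positivity,
    fun a κ U Un F K ha hκ hz h0 hl hU hF hK hFK heq => ?_⟩
  have hY : 0 < Y := hδ.trans_le hδY
  have hA := smooth_mul_d2 hY ha hU
  have hE : Edge Y κ a := Or.inl (hz Y le_rfl)
  have hco := hcoer Y a κ U hδY ha hκ hE hU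
  have hfo := hforc Y a κ U F K hδY ha hκ hE hU hF hK hFK
  have hd := hdr a κ U ha hκ hz hl hU
  have hlw := loss_le_wsq hY.le hκ hU.continuousOn
  rw [h0, one_pow, one_mul] at hco hfo
  have cκ := hκ.smooth.continuous.continuousOn (s := Icc 0 Y)
  have cρ := (continuous_rho 5).continuousOn (s := Icc 0 Y)
  have c0 := hU.continuousOn
  have cA := continuousOn_rdst hY hA
  have cF := continuousOn_rdst hY hF
  have ccd := (smooth_cdrift hY hU).continuousOn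
  have e1 : ∀ y ∈ Ioo 0 Y, κ y ^ 8 * rho 5 y * U y
      * dst (fun z => a z * deriv (deriv U) z) y = κ y ^ 8 * U y * rdst Y (fun z => a z * d2 Y U z) y :=
    fun y hy => by
      rw [dst_congr_Ioo (G := fun z => a z * d2 Y U z)
        (fun z hz' => by simp only [deriv_d2 hY hU hz']) hy, ← rho_dst hY hA hy]
      ring
  have e2 : ∀ y ∈ Ioo 0 Y, κ y ^ 8 * rho 5 y * U y * dst F y = κ y ^ 8 * U y * rdst Y F y :=
    fun y hy => by
      rw [← rho_dst hY hF hy]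
      ring
  rw [intervalIntegral.integral_congr_Ioo_of_le hY.le e1] at hco
  rw [intervalIntegral.integral_congr_Ioo_of_le hY.le e2] at hfo
  have e3 : ∀ y ∈ Ioo 0 Y, κ y ^ 8 * rho 5 y * U y * Un y
      = κ y ^ 8 * rho 5 y * U y * cdrift Y U y
        - κ y ^ 8 * U y * rdst Y (fun z => a z * d2 Y U z) y
        - κ y ^ 8 * U y * rdst Y F y := fun y hy => by
    rw [← rho_dst hY hA hy, ← rho_dst hY hF hy, heq y hy]
    have h2 : dst (fun z => a z * d2 Y U z + F z) y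
        = dst (fun z => a z * d2 Y U z) y - dst (fun z => -F z) y := by
      rw [← dst_sub hY hA hF.neg hy]
      simp only [sub_neg_eq_add]
    rw [h2, dst_neg]
    ring
  rw [intervalIntegral.integral_congr_Ioo_of_le hY.le e3,
    intervalIntegral.integral_sub (II.of_cont hY.le (by fun_prop))
      (II.of_cont hY.le (by fun_prop)),
    intervalIntegral.integral_sub (II.of_cont hY.le (by fun_prop))
      (II.of_cont hY.le (by fun_prop))]
  have hfs : 0 ≤ fsq 5 κ Y a K := integral_nonneg' hY.le (fun y hy => by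
    have := ha.pos y hy
    have := hκ.nonneg y
    have := rho_nonneg 5 hy.1.le
    positivity)
  have hw := wsq_nonneg hY.le (p := 4) (U := U) hκ.nonneg
  have hd' := abs_le.1 hd
  have hfo' := abs_le.1 hfo
  have hn := near_nonneg hδ.le U
  rw [tot]
  nlinarith [mul_le_mul_of_nonneg_left hlw hC1.le, mul_le_mul_of_nonneg_left hlw hC2.le,
    mul_nonneg hC1.le hfs, mul_nonneg hC3.le hfs, mul_nonneg hc0.le hn,
    mul_nonneg hC2.le hw]

theorem near_congr {δ : ℝ} (hδ : 0 ≤ δ) {U V : ℝ → ℝ} (h : ∀ y, y < δ → U y = V y) :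
    near δ U = near δ V :=
  intervalIntegral.integral_congr_Ioo_of_le hδ (fun y hy => by
    have he : U =ᶠ[𝓝 y] V := eventually_of_mem (Iio_mem_nhds hy.2) (fun z hz => h z hz)
    simp only [he.deriv_eq, h y hy.2])

theorem second_deriv_mul {Y : ℝ} (hY : 0 < Y) {θ U : ℝ → ℝ} (hθ : ContDiff ℝ ∞ θ)
    (hU : ContDiffOn ℝ ∞ U (Icc 0 Y)) {y : ℝ} (hy : y ∈ Ioo 0 Y) :
    deriv (deriv (fun z => θ z ^ 4 * U z)) y =
      (12 * θ y ^ 2 * deriv θ y ^ 2 + 4 * θ y ^ 3 * deriv (deriv θ) y) * U y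
        + 8 * θ y ^ 3 * deriv θ y * d1 Y U y + θ y ^ 4 * d2 Y U y := by
  have hd : ∀ z, HasDerivAt θ (deriv θ z) z :=
    fun z => (hθ.differentiable (by simp) z).hasDerivAt
  have hd2 : ∀ z, HasDerivAt (deriv θ) (deriv (deriv θ) z) z :=
    fun z => (((contDiff_infty_iff_deriv.1 hθ).2).differentiable (by simp) z).hasDerivAt
  have h1 : deriv (fun z => θ z ^ 4 * U z) =ᶠ[𝓝 y]
      fun z => 4 * θ z ^ 3 * deriv θ z * U z + θ z ^ 4 * d1 Y U z :=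
    eventually_of_mem (isOpen_Ioo.mem_nhds hy) (fun z hz =>
      (((hd z).fun_pow 4).fun_mul (hasDerivAt_d1 hU hz)).deriv.trans (by norm_num))
  rw [h1.deriv_eq]
  refine ((((((hd y).fun_pow 3).const_mul 4).fun_mul (hd2 y)).fun_mul
    (hasDerivAt_d1 hU hy)).fun_add (((hd y).fun_pow 4).fun_mul
      (hasDerivAt_d1 (smooth_d1 hY hU) hy))).deriv.trans ?_
  simp only [d2]
  push_cast
  ring

/-- The pairing with `dst (ap U'')`, by scaling the test function. -/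
theorem pair_scaled (hFo : Energy.ForcingTarget) :
    ∃ δ₀ : ℝ, 0 < δ₀ ∧ ∀ M G δ Y : ℝ, 0 < δ → δ ≤ δ₀ → δ ≤ Y →
      ∃ C : ℝ, 0 < C ∧ ∀ ap κ U W : ℝ → ℝ, Coef Y M δ ap → Cut Y G δ κ →
        (∀ y, Y ≤ y → κ y = 0) → κ 0 = 1 →
        ContDiffOn ℝ ∞ U (Icc 0 Y) → ContDiffOn ℝ ∞ W (Icc 0 Y) →
        ∀ lam : ℝ, 0 < lam →
          lam * |∫ y in (0:ℝ)..Y, κ y ^ 8 * W y * rdst Y (fun z => ap z * d2 Y U z) y|
            ≤ lam ^ 2 * (diss 5 κ Y ap W + near δ W + C * loss 5 κ Y W)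
              + C * diss 5 κ Y ap U := by
  obtain ⟨δ₂, hδ₂, hf⟩ := hFo
  refine ⟨δ₂, hδ₂, fun M G δ Y hδ hδ0 hδY => ?_⟩
  obtain ⟨C1, hC1, hforc⟩ := hf 5 (by norm_num) (by norm_num) M G δ hδ hδ0 1 one_pos
  refine ⟨C1, hC1, fun ap κ U W hap hκ hzκ hκ0 hU hW lam hlam0 => ?_⟩
  have hY : 0 < Y := hδ.trans_le hδY
  have hF := smooth_mul_d2 hY hap hU
  have cU2 := (smooth_d2 hY hU).continuousOn
  -- the forcing pairing, scaled
  have hfo := hforc Y ap κ (fun z => lam * W z) (fun z => ap z * d2 Y U z) (d2 Y U) hδY hap hκ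
    (Or.inl (hzκ Y le_rfl)) (contDiffOn_const.mul hW) hF cU2 (fun _ _ => rfl)
  rw [hκ0, one_pow, one_mul, one_mul] at hfo
  have e2 : ∀ y ∈ Ioo 0 Y, κ y ^ 8 * rho 5 y * (lam * W y) * dst (fun z => ap z * d2 Y U z) y
      = lam * (κ y ^ 8 * W y * rdst Y (fun z => ap z * d2 Y U z) y) := fun y hy => by
    rw [← rho_dst hY hF hy]
    ring
  rw [intervalIntegral.integral_congr_Ioo_of_le hY.le e2, intervalIntegral.integral_const_mul,
    abs_mul, abs_of_pos hlam0] at hfo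
  have hfs : fsq 5 κ Y ap (d2 Y U) = diss 5 κ Y ap U := (diss_eq hY hU).symm
  rw [hfs] at hfo
  have hl1 : diss 5 κ Y ap (fun z => lam * W z) = lam ^ 2 * diss 5 κ Y ap W := by
    rw [diss, diss, ← intervalIntegral.integral_const_mul]
    refine intervalIntegral.integral_congr_Ioo_of_le hY.le (fun y hy => ?_)
    have : deriv (fun z => lam * W z) = fun z => lam * deriv W z :=
      funext fun z => by rw [deriv_const_mul_field]
    rw [this, deriv_const_mul_field]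
    ring
  have hl2 : near δ (fun z => lam * W z) = lam ^ 2 * near δ W := by
    rw [near, near, ← intervalIntegral.integral_const_mul]
    refine intervalIntegral.integral_congr_Ioo_of_le hδ.le (fun y hy => ?_)
    simp only [deriv_const_mul_field]
    ring
  have hl3 : loss 5 κ Y (fun z => lam * W z) = lam ^ 2 * loss 5 κ Y W := by
    rw [loss, loss, ← intervalIntegral.integral_const_mul]
    refine intervalIntegral.integral_congr_Ioo_of_le hY.le (fun y hy => ?_)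
    ring
  rw [hl1, hl2, hl3] at hfo
  linarith

/-- The test function `W = th^4 Z` against the quantities of `Z`. -/
theorem diss_test {M G δ m Y : ℝ} (hY : 0 < Y) (hm : 0 < m) (hM : 0 ≤ M) (hG : 0 ≤ G)
    {a ap κ θ Z : ℝ → ℝ} (ha : Coef Y M δ a) (hap : Coef Y M δ ap) (hκ : Cut Y G δ κ)
    (hθ : Cut Y G δ θ) (hla : ∀ y ∈ Icc 0 Y, m * y ^ 2 ≤ a y)
    (hZ : ContDiffOn ℝ ∞ Z (Icc 0 Y)) :
    diss 5 κ Y ap (fun z => θ z ^ 4 * Z z) ≤ 3 * M * ((1 / m) * diss 5 θ Y a Z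
      + 64 * G ^ 2 * (∫ y in (0:ℝ)..Y, θ y ^ 6 * rho 5 y * (y * d1 Y Z y) ^ 2)
      + (12 * G ^ 2 + 4 * G) ^ 2 * Y ^ 2 * wsq 5 4 θ Y Z) := by
  set W := fun z => θ z ^ 4 * Z z with hWdef
  have hW : ContDiffOn ℝ ∞ W (Icc 0 Y) := (hθ.smooth.contDiffOn.pow 4).mul hZ
  have cκ := hκ.smooth.continuous.continuousOn (s := Icc 0 Y)
  have cθ := hθ.smooth.continuous.continuousOn (s := Icc 0 Y)
  have cρ := (continuous_rho 5).continuousOn (s := Icc 0 Y)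
  have cZ := hZ.continuousOn
  have cZ1 := (smooth_d1 hY hZ).continuousOn
  have cZ2 := (smooth_d2 hY hZ).continuousOn
  have cW2 := (smooth_d2 hY hW).continuousOn
  have ca := ha.smooth.continuousOn
  have cap := hap.smooth.continuousOn
  rw [diss_eq hY hW, diss_eq hY hZ, wsq, ← intervalIntegral.integral_const_mul,
    ← intervalIntegral.integral_const_mul, ← intervalIntegral.integral_const_mul,
    ← intervalIntegral.integral_add (II.of_cont hY.le (by fun_prop))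
      (II.of_cont hY.le (by fun_prop)),
    ← intervalIntegral.integral_add (II.of_cont hY.le (by fun_prop))
      (II.of_cont hY.le (by fun_prop)), ← intervalIntegral.integral_const_mul]
  refine integral_le hY.le (II.of_cont hY.le (by fun_prop)) (II.of_cont hY.le (by fun_prop))
    (fun y hy => ?_)
  have hy' : y ∈ Icc 0 Y := Ioo_subset_Icc_self hy
  have hr := rho_nonneg 5 hy.1.le
  have hW2 : d2 Y W y = (12 * θ y ^ 2 * deriv θ y ^ 2 + 4 * θ y ^ 3 * deriv (deriv θ) y) * Z y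
      + 8 * θ y ^ 3 * deriv θ y * d1 Y Z y + θ y ^ 4 * d2 Y Z y :=
    (deriv_d2 hY hW hy).symm.trans (second_deriv_mul hY hθ.smooth hZ hy)
  have hθy := hθ.nonneg y
  have ht1 : |deriv θ y| ≤ G := (hθ.d1 y hy').trans (div_le_self hG (by linarith [hy.1]))
  have ht2 : |deriv (deriv θ) y| ≤ G :=
    (hθ.d2 y hy').trans (div_le_self hG (one_le_pow₀ (by linarith [hy.1])))
  have t1 : deriv θ y ^ 2 ≤ G ^ 2 := sq_le_sq' (abs_le.1 ht1).1 (abs_le.1 ht1).2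
  have t32 : θ y ^ 3 ≤ θ y ^ 2 := cut_pow_le hθ (by norm_num) y
  have hc : |12 * θ y ^ 2 * deriv θ y ^ 2 + 4 * θ y ^ 3 * deriv (deriv θ) y|
      ≤ (12 * G ^ 2 + 4 * G) * θ y ^ 2 := by
    refine (abs_add_le _ _).trans ?_
    rw [abs_of_nonneg (by positivity : 0 ≤ 12 * θ y ^ 2 * deriv θ y ^ 2), abs_mul,
      abs_of_nonneg (by positivity : 0 ≤ 4 * θ y ^ 3)]
    calc 12 * θ y ^ 2 * deriv θ y ^ 2 + 4 * θ y ^ 3 * |deriv (deriv θ) y|
        ≤ 12 * θ y ^ 2 * G ^ 2 + 4 * θ y ^ 2 * G := by gcongr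
      _ = _ := by ring
  have hc2 : (12 * θ y ^ 2 * deriv θ y ^ 2 + 4 * θ y ^ 3 * deriv (deriv θ) y) ^ 2
      ≤ (12 * G ^ 2 + 4 * G) ^ 2 * θ y ^ 4 :=
    (sq_le_sq' (abs_le.1 hc).1 (abs_le.1 hc).2).trans_eq (by ring)
  have hay : y ^ 2 ≤ 1 / m * a y := by
    rw [div_mul_eq_mul_div, le_div_iff₀ hm]
    linarith [hla y hy']
  have hY2 : y ^ 2 ≤ Y ^ 2 := pow_le_pow_left₀ hy.1.le hy.2.le 2
  have hk8 : κ y ^ 8 ≤ 1 := pow_le_one₀ (hκ.nonneg y) (hκ.le_one y)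
  have hsq : ∀ A B C : ℝ, (A + B + C) ^ 2 ≤ 3 * (A ^ 2 + B ^ 2 + C ^ 2) := fun A B C => by
    nlinarith [sq_nonneg (A - B), sq_nonneg (B - C), sq_nonneg (A - C)]
  have hk0 := pow_nonneg (hκ.nonneg y) 8
  calc κ y ^ 8 * rho 5 y * (ap y * d2 Y W y ^ 2)
      ≤ 1 * rho 5 y * (M * y ^ 2 * d2 Y W y ^ 2) := by
        have := mul_nonneg (hap.pos y hy).le (sq_nonneg (d2 Y W y))
        gcongr
        exact hap.upper y hy'
    _ ≤ rho 5 y * (M * y ^ 2 * (3 * ((12 * G ^ 2 + 4 * G) ^ 2 * θ y ^ 4 * Z y ^ 2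
          + 64 * G ^ 2 * θ y ^ 6 * d1 Y Z y ^ 2 + θ y ^ 8 * d2 Y Z y ^ 2))) := by
        rw [one_mul, hW2]
        gcongr
        refine (hsq _ _ _).trans ?_
        gcongr
        · rw [mul_pow]
          gcongr
        · rw [mul_pow, mul_pow, mul_pow]
          calc (8:ℝ) ^ 2 * (θ y ^ 3) ^ 2 * deriv θ y ^ 2 * d1 Y Z y ^ 2
              ≤ 8 ^ 2 * (θ y ^ 3) ^ 2 * G ^ 2 * d1 Y Z y ^ 2 := by gcongr
            _ = _ := by ring
        · rw [mul_pow, ← pow_mul]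
    _ = 3 * M * (y ^ 2 * (θ y ^ 8 * rho 5 y * d2 Y Z y ^ 2)
          + 64 * G ^ 2 * (θ y ^ 6 * rho 5 y * (y * d1 Y Z y) ^ 2)
          + (12 * G ^ 2 + 4 * G) ^ 2 * y ^ 2 * (θ y ^ 4 * rho 5 y * Z y ^ 2)) := by ring
    _ ≤ 3 * M * (1 / m * a y * (θ y ^ 8 * rho 5 y * d2 Y Z y ^ 2)
          + 64 * G ^ 2 * (θ y ^ 6 * rho 5 y * (y * d1 Y Z y) ^ 2)
          + (12 * G ^ 2 + 4 * G) ^ 2 * Y ^ 2 * (θ y ^ 4 * rho 5 y * Z y ^ 2)) := by
        gcongr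
    _ = _ := by ring

/-- Splitting `th^4 Z^2` by the equation. -/
theorem pair_identity {M G δ Y : ℝ} (hY : 0 < Y)
    {ap κ θ U Z : ℝ → ℝ} (hap : Coef Y M δ ap) (hκ : Cut Y G δ κ)
    (hθ : Cut Y G δ θ) (hdom : ∀ y, 0 ≤ y → θ y ≠ 0 → κ y = 1)
    (hU : ContDiffOn ℝ ∞ U (Icc 0 Y)) (hZ : ContDiffOn ℝ ∞ Z (Icc 0 Y))
    (heq : ∀ y ∈ Ioo 0 Y, Z y = cdrift Y U y - dst (fun z => ap z * d2 Y U z) y) :
    wsq 5 4 θ Y Z =
      (∫ y in (0:ℝ)..Y, κ y ^ 8 * rho 5 y * (θ y ^ 4 * Z y) * cdrift Y U y) -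
      ∫ y in (0:ℝ)..Y, κ y ^ 8 * (θ y ^ 4 * Z y) * rdst Y (fun z => ap z * d2 Y U z) y := by
  set W := fun z => θ z ^ 4 * Z z with hWdef
  have hW : ContDiffOn ℝ ∞ W (Icc 0 Y) := (hθ.smooth.contDiffOn.pow 4).mul hZ
  have cκ := hκ.smooth.continuous.continuousOn (s := Icc 0 Y)
  have cθ := hθ.smooth.continuous.continuousOn (s := Icc 0 Y)
  have cρ := (continuous_rho 5).continuousOn (s := Icc 0 Y)
  have cZ := hZ.continuousOn
  have cW := hW.continuousOn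
  have cU := hU.continuousOn
  have cU1 := (smooth_d1 hY hU).continuousOn
  have ccd := (smooth_cdrift hY hU).continuousOn
  have hF := smooth_mul_d2 hY hap hU
  have cF := continuousOn_rdst hY hF
  show _ = (∫ y in (0:ℝ)..Y, κ y ^ 8 * rho 5 y * W y * cdrift Y U y) -
    ∫ y in (0:ℝ)..Y, κ y ^ 8 * W y * rdst Y (fun z => ap z * d2 Y U z) y
  rw [← intervalIntegral.integral_sub (II.of_cont hY.le (by fun_prop))
    (II.of_cont hY.le (by fun_prop))]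
  refine intervalIntegral.integral_congr_Ioo_of_le hY.le (fun y hy => ?_)
  rw [← rho_dst hY hF hy]
  by_cases h : θ y = 0
  · simp [hWdef, h]
  · rw [hWdef, hdom y hy.1.le h]
    simp only [one_pow]
    rw [pow_two, ← mul_assoc]
    nth_rw 2 [heq y hy]
    ring

/-- The transport part of the pairing. -/
theorem pair_drift {G δ Y : ℝ} (hY : 0 < Y) {κ θ U Z : ℝ → ℝ} (hκ : Cut Y G δ κ)
    (hθ : Cut Y G δ θ) (hdom : ∀ y, 0 ≤ y → θ y ≠ 0 → κ y = 1)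
    (hU : ContDiffOn ℝ ∞ U (Icc 0 Y)) (hZ : ContDiffOn ℝ ∞ Z (Icc 0 Y)) :
    (∫ y in (0:ℝ)..Y, κ y ^ 8 * rho 5 y * (θ y ^ 4 * Z y) * cdrift Y U y)
      ≤ 1 / 4 * wsq 5 4 θ Y Z + wsq 5 4 κ Y U
        + ∫ y in (0:ℝ)..Y, κ y ^ 6 * rho 5 y * (y * d1 Y U y) ^ 2 := by
  set W := fun z => θ z ^ 4 * Z z with hWdef
  have hW : ContDiffOn ℝ ∞ W (Icc 0 Y) := (hθ.smooth.contDiffOn.pow 4).mul hZ
  have cκ := hκ.smooth.continuous.continuousOn (s := Icc 0 Y)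
  have cθ := hθ.smooth.continuous.continuousOn (s := Icc 0 Y)
  have cρ := (continuous_rho 5).continuousOn (s := Icc 0 Y)
  have cZ := hZ.continuousOn
  have cW := hW.continuousOn
  have cU := hU.continuousOn
  have cU1 := (smooth_d1 hY hU).continuousOn
  have ccd := (smooth_cdrift hY hU).continuousOn
  have hθκ : ∀ y, 0 ≤ y → ∀ p q : ℕ, 0 < p → θ y ^ p ≤ κ y ^ q := fun y hy p q hp => by
    by_cases h : θ y = 0
    · rw [h, zero_pow hp.ne']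
      exact pow_nonneg (hκ.nonneg y) q
    · rw [hdom y hy h, one_pow]
      exact pow_le_one₀ (hθ.nonneg y) (hθ.le_one y)
  show (∫ y in (0:ℝ)..Y, κ y ^ 8 * rho 5 y * W y * cdrift Y U y) ≤ _
  rw [wsq, wsq, ← intervalIntegral.integral_const_mul,
    ← intervalIntegral.integral_add (II.of_cont hY.le (by fun_prop))
      (II.of_cont hY.le (by fun_prop)),
    ← intervalIntegral.integral_add (II.of_cont hY.le (by fun_prop))
      (II.of_cont hY.le (by fun_prop))]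
  refine integral_le hY.le (II.of_cont hY.le (by fun_prop)) (II.of_cont hY.le (by fun_prop))
    (fun y hy => ?_)
  have hr := rho_nonneg 5 hy.1.le
  have h0 := hy.1.le
  calc κ y ^ 8 * rho 5 y * W y * cdrift Y U y
      = θ y ^ 4 * rho 5 y * (Z y * cdrift Y U y) := by
        by_cases h : θ y = 0
        · simp [hWdef, h]
        · rw [hWdef, hdom y h0 h]
          ring
    _ ≤ θ y ^ 4 * rho 5 y * (1 / 4 * Z y ^ 2 + (U y ^ 2 + (y * d1 Y U y) ^ 2)) := by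
        gcongr
        rw [cdrift]
        nlinarith [sq_nonneg (Z y / 2 - (U y / 2 - y * d1 Y U y / 2)),
          sq_nonneg (U y + y * d1 Y U y), sq_nonneg (U y), sq_nonneg (y * d1 Y U y)]
    _ = 1 / 4 * (θ y ^ 4 * rho 5 y * Z y ^ 2) + (θ y ^ 4 * rho 5 y * U y ^ 2)
        + θ y ^ 4 * rho 5 y * (y * d1 Y U y) ^ 2 := by ring
    _ ≤ _ := by
        have := mul_le_mul_of_nonneg_right (mul_le_mul_of_nonneg_right
          (hθκ y h0 4 4 (by norm_num)) hr) (sq_nonneg (U y))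
        have := mul_le_mul_of_nonneg_right (mul_le_mul_of_nonneg_right
          (hθκ y h0 4 6 (by norm_num)) hr) (sq_nonneg (y * d1 Y U y))
        linarith

theorem loss_test {G δ Y : ℝ} (hY : 0 ≤ Y) {κ θ Z : ℝ → ℝ} (hκ : Cut Y G δ κ)
    (hθ : Cut Y G δ θ) (cZ : ContinuousOn Z (Icc 0 Y)) :
    loss 5 κ Y (fun z => θ z ^ 4 * Z z) ≤ wsq 5 4 θ Y Z := by
  have cκ := hκ.smooth.continuous.continuousOn (s := Icc 0 Y)
  have cθ := hθ.smooth.continuous.continuousOn (s := Icc 0 Y)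
  have cρ := (continuous_rho 5).continuousOn (s := Icc 0 Y)
  refine (loss_le_wsq hY hκ (by fun_prop)).trans ?_
  refine integral_le hY (II.of_cont hY (by fun_prop)) (II.of_cont hY (by fun_prop))
    (fun y hy => ?_)
  have hr := rho_nonneg 5 hy.1.le
  have h1 : κ y ^ 4 * θ y ^ 4 ≤ 1 :=
    mul_le_one₀ (pow_le_one₀ (hκ.nonneg y) (hκ.le_one y)) (pow_nonneg (hθ.nonneg y) 4)
      (pow_le_one₀ (hθ.nonneg y) (hθ.le_one y))
  have : 0 ≤ θ y ^ 4 * rho 5 y * Z y ^ 2 := by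
    have := hθ.nonneg y
    positivity
  calc κ y ^ 4 * rho 5 y * (θ y ^ 4 * Z y) ^ 2
      = κ y ^ 4 * θ y ^ 4 * (θ y ^ 4 * rho 5 y * Z y ^ 2) := by ring
    _ ≤ _ := mul_le_of_le_one_left this h1

theorem test_arith {A B G C2 M C1 d n w l x dW : ℝ} (hA0 : 0 ≤ A) (hB0 : 0 ≤ B) (hM : 0 ≤ M) (hC1 : 0 ≤ C1)
    (hC2 : 0 ≤ C2) (hd : 0 ≤ d) (hn : 0 ≤ n) (hw : 0 ≤ w) (hl : l ≤ w) (hx : x ≤ d + C2 * w)
    (hW : dW ≤ 3 * M * (A * d + 64 * G ^ 2 * x + B * w)) :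
    dW + n + C1 * l ≤ (3 * M * (A + 64 * G ^ 2 * (1 + C2) + B) + C1 + 1) * (d + n + w) := by
  have hG : 0 ≤ 64 * G ^ 2 := by positivity
  have hx' : x ≤ (1 + C2) * (d + n + w) := by nlinarith [mul_nonneg hC2 hd, mul_nonneg hC2 hn]
  have e1 : A * d ≤ A * (d + n + w) := mul_le_mul_of_nonneg_left (by linarith) hA0
  have e2 : B * w ≤ B * (d + n + w) := mul_le_mul_of_nonneg_left (by linarith) hB0
  have e3 := mul_le_mul_of_nonneg_left hx' hG
  have e4 := mul_le_mul_of_nonneg_left (add_le_add (add_le_add e1 e3) e2)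
    (by linarith : (0:ℝ) ≤ 3 * M)
  have e5 : C1 * l ≤ C1 * (d + n + w) := mul_le_mul_of_nonneg_left (by linarith) hC1
  linarith

theorem level_arith {W w i dU nU I lam D μ tt C1l C2 : ℝ} (hid : W = i - I)
    (hi : i ≤ 1 / 4 * W + w + (dU + C2 * w)) (hI : |I| ≤ lam * (D * (tt + W)) + C1l * dU)
    (h1 : lam * D ≤ μ / 2) (h2 : lam * D ≤ 1 / 4) (htt : 0 ≤ tt) (hW : 0 ≤ W) (hw : 0 ≤ w)
    (hdU : 0 ≤ dU) (hnU : 0 ≤ nU) (hC : 0 ≤ C1l) (hC2 : 0 ≤ C2) :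
    W ≤ μ * tt + 2 * (C1l + C2 + 2) * (dU + nU + w) := by
  have := (abs_le.1 hI).1
  have := mul_le_mul_of_nonneg_right h1 htt
  have := mul_le_mul_of_nonneg_right h2 hW
  have := mul_nonneg hC hnU
  have := mul_nonneg hC hw
  have := mul_nonneg hC2 hdU
  have := mul_nonneg hC2 hnU
  linarith

/-- The lower order norm of `Z = drift U - dst (ap U'')` against the two dissipations. -/
theorem level (hFo : Energy.ForcingTarget) (hIn : Energy.InterpTarget) :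
    ∃ δ₀ : ℝ, 0 < δ₀ ∧ ∀ M G δ m Y : ℝ, 0 < δ → δ ≤ δ₀ → δ ≤ Y → 0 < m → 0 ≤ M → 0 ≤ G →
      ∀ μ : ℝ, 0 < μ → ∃ C : ℝ, 0 < C ∧ ∀ a ap κ θ U Z : ℝ → ℝ, Coef Y M δ a → Coef Y M δ ap →
        Cut Y G δ κ → Cut Y G δ θ → (∀ y, Y ≤ y → κ y = 0) → (∀ y, Y ≤ y → θ y = 0) →
        κ 0 = 1 → θ 0 = 1 → (∀ y, 0 ≤ y → θ y ≠ 0 → κ y = 1) →
        (∀ y ∈ Icc 0 Y, m * y ^ 2 ≤ a y) → (∀ y ∈ Icc 0 Y, m * y ^ 2 ≤ ap y) →
        ContDiffOn ℝ ∞ U (Icc 0 Y) → ContDiffOn ℝ ∞ Z (Icc 0 Y) →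
        (∀ y ∈ Ioo 0 Y, Z y = cdrift Y U y - dst (fun z => ap z * d2 Y U z) y) →
        wsq 5 4 θ Y Z ≤ μ * tot δ Y θ a Z + C * (tot δ Y κ ap U + wsq 5 4 κ Y U) := by
  obtain ⟨δ₂, hδ₂, hf⟩ := pair_scaled hFo
  refine ⟨δ₂, hδ₂, fun M G δ m Y hδ hδ0 hδY hm hM hG μ hμ => ?_⟩
  obtain ⟨C1, hC1, hforc⟩ := hf M G δ Y hδ hδ0 hδY
  obtain ⟨C2, hC2, hint⟩ := interp_d1 hIn (M := M) (G := G) (m := m) hδ hm hδY one_pos
  set D := 3 * M * ((1 / m) + 64 * G ^ 2 * (1 + C2) + (12 * G ^ 2 + 4 * G) ^ 2 * Y ^ 2) + C1 + 1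
    with hDdef
  have hD1 : 1 ≤ D := by
    have : 0 ≤ 3 * M * ((1 / m) + 64 * G ^ 2 * (1 + C2)
        + (12 * G ^ 2 + 4 * G) ^ 2 * Y ^ 2) := by positivity
    rw [hDdef]
    linarith
  have hD : 0 < D := by linarith
  set lam := min (μ / (2 * D)) (1 / (4 * D)) with hlam
  have hlam0 : 0 < lam := lt_min (by positivity) (by positivity)
  refine ⟨2 * (C1 / lam + C2 + 2), by positivity, fun a ap κ θ U Z ha hap hκ hθ hzκ hzθ hκ0 hθ0
    hdom hla hlp hU hZ heq => ?_⟩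
  have hY : 0 < Y := hδ.trans_le hδY
  set W := fun z => θ z ^ 4 * Z z with hWdef
  have hW : ContDiffOn ℝ ∞ W (Icc 0 Y) := (hθ.smooth.contDiffOn.pow 4).mul hZ
  have cκ := hκ.smooth.continuous.continuousOn (s := Icc 0 Y)
  have cθ := hθ.smooth.continuous.continuousOn (s := Icc 0 Y)
  have cρ := (continuous_rho 5).continuousOn (s := Icc 0 Y)
  have cZ := hZ.continuousOn
  have cW := hW.continuousOn
  have hfo := hforc ap κ U W hap hκ hzκ hκ0 hU hW lam hlam0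
  set I2 := ∫ y in (0:ℝ)..Y, κ y ^ 8 * W y * rdst Y (fun z => ap z * d2 Y U z) y with hI2
  have hint' := hint a θ Z ha hθ hzθ hla hZ
  have hw0 := wsq_nonneg hY.le (p := 4) (U := Z) hθ.nonneg
  have hd0 : 0 ≤ diss 5 θ Y a Z := diss_nonneg hY.le ha hθ.nonneg
  have hnW : near δ W = near δ Z := near_congr hδ.le (fun y hy =>
    show θ y ^ 4 * Z y = Z y by rw [hθ.flat y hy.le, hθ0, one_pow, one_mul])
  have hlossW := loss_test hY.le hκ hθ cZ
  have hdissW := diss_test hY hm hM hG ha hap hκ hθ hla hZ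
  have hX : diss 5 κ Y ap W + near δ W + C1 * loss 5 κ Y W
      ≤ D * (tot δ Y θ a Z + wsq 5 4 θ Y Z) := by
    rw [hnW, tot, hDdef]
    exact test_arith (A := 1 / m) (B := (12 * G ^ 2 + 4 * G) ^ 2 * Y ^ 2)
      (by positivity) (by positivity) hM hC1.le hC2.le hd0 (near_nonneg hδ.le Z) hw0 hlossW
      (by linarith [hint']) hdissW
  have hdU : 0 ≤ diss 5 κ Y ap U := diss_nonneg hY.le hap hκ.nonneg
  have hnU := near_nonneg hδ.le U
  have hwU := wsq_nonneg hY.le (p := 4) (U := U) hκ.nonneg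
  have hI2' : |I2| ≤ lam * (D * (tot δ Y θ a Z + wsq 5 4 θ Y Z))
      + C1 / lam * diss 5 κ Y ap U := by
    refine le_of_mul_le_mul_left (hfo.trans ?_) hlam0
    have e : lam * (lam * (D * (tot δ Y θ a Z + wsq 5 4 θ Y Z)) + C1 / lam * diss 5 κ Y ap U)
        = lam ^ 2 * (D * (tot δ Y θ a Z + wsq 5 4 θ Y Z)) + C1 * diss 5 κ Y ap U := by
      field_simp
    rw [e]
    have := mul_le_mul_of_nonneg_left hX (sq_nonneg lam)
    linarith
  have hid := pair_identity hY hap hκ hθ hdom hU hZ heq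
  have hdr := pair_drift hY hκ hθ hdom hU hZ
  have hiU := hint ap κ U hap hκ hzκ hlp hU
  have hlD : lam * D ≤ μ / 2 ∧ lam * D ≤ 1 / 4 :=
    ⟨(mul_le_mul_of_nonneg_right (min_le_left _ _) hD.le).trans_eq (by field_simp),
      (mul_le_mul_of_nonneg_right (min_le_right _ _) hD.le).trans_eq (by field_simp)⟩
  have htot : 0 ≤ tot δ Y θ a Z := add_nonneg hd0 (near_nonneg hδ.le Z)
  have hCl : 0 ≤ C1 / lam := by positivity
  exact level_arith hid (hdr.trans (by linarith [hiU])) hI2' hlD.1 hlD.2 htot hw0 hwU hdU hnU hCl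
    hC2.le

end Vale.Agent.P264.Inner
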