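import Vale.Agent.P264.Inner.Pointwise

/-!
Sup bounds of the flux `Φ^2 Z1''` and of the profile difference near the origin.
-/

namespace Vale.Agent.P264.Inner

open Set Filter MeasureTheory
open scoped ContDiff Topology

variable {σ : Shrinker} {R M δ M' G m : ℝ} {Φ V Z1 Z2 : ℝ → ℝ}

/-- Near the origin the flux is `O(y)` by the singular parts of `Z1`, `Z2`. -/
theorem flux_near (hB : Box σ R M δ M' G m) (hS : Slice σ R M Φ V Z1 Z2) {y : ℝ}
    (hy : y ∈ Ioo 0 δ) :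
    (coef1 Φ y * d2 δ Z1 y) ^ 2 ≤ 3 * y ^ 2 * (near δ Z1 + near δ Z2) := by
  have hδ := hB.δ_pos
  have hy0 := hy.1
  have hδb : δ ≤ 64 * R := hB.δ_le.trans (by linarith [hB.R_one])
  obtain ⟨-, s1, s2, sΦ⟩ := hS.mono (Y := δ) hδb
  have hF : ContDiffOn ℝ ∞ (fun z => coef1 Φ z * d2 δ Z1 z) (Icc 0 δ) :=
    (sΦ.mul sΦ).mul (smooth_d2 hδ s1)
  have c1 := s1.continuousOn
  have c2 := s2.continuousOn
  have c11 := (smooth_d1 hδ s1).continuousOn
  have c21 := (smooth_d1 hδ s2).continuousOn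
  have cg : ContinuousOn (fun z => cdrift δ Z1 z - Z2 z) (Icc 0 δ) :=
    (smooth_cdrift hδ s1).continuousOn.sub c2
  set N := near δ Z1 + near δ Z2 with hN
  have hN0 : 0 ≤ N := add_nonneg (near_nonneg hδ.le _) (near_nonneg hδ.le _)
  have hg : (∫ z in (0:ℝ)..δ, (1:ℝ) ^ 8 * z ^ 1 * (cdrift δ Z1 z - Z2 z) ^ 2) ≤ 3 * N := by
    rw [hN, near_eq hδ.le le_rfl s1, near_eq hδ.le le_rfl s2,
      ← intervalIntegral.integral_add (II.of_cont hδ.le (by fun_prop))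
      (II.of_cont hδ.le (by fun_prop)), ← intervalIntegral.integral_const_mul]
    refine integral_le hδ.le (II.of_cont hδ.le (by fun_prop)) (II.of_cont hδ.le (by fun_prop))
      (fun z hz => ?_)
    have := mul_le_mul_of_nonneg_left (drift_sub_sq (Z1 z) (z * d1 δ Z1 z) (Z2 z)) hz.1.le
    have : 0 ≤ z ^ 3 * d1 δ Z2 z ^ 2 := mul_nonneg (pow_nonneg hz.1.le 3) (sq_nonneg _)
    rw [cdrift]
    linarith
  have hy6 : y ^ 6 ≠ 0 := pow_ne_zero _ hy0.ne'
  have key : ∀ t : ℝ, 0 < t → (coef1 Φ y * d2 δ Z1 y) ^ 2 ≤ (3 * N + t) * y ^ 2 := fun t ht => by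
    have he : 0 < Real.sqrt (3 * N + t) := Real.sqrt_pos.2 (by linarith)
    have h := (inv_weighted (θ := fun _ => (1:ℝ)) hδ hF continuous_const (fun _ => zero_le_one)
      (fun _ _ _ => le_rfl) cg (fun z hz => by linarith [hS.eq2' hδb hz]) 1 7 (by norm_num)
      (by norm_num) he (hg.trans (by rw [Real.sq_sqrt (by linarith)]; linarith)) hy).1
    rw [one_pow, one_mul] at h
    have h' : |coef1 Φ y * d2 δ Z1 y| ≤ Real.sqrt (3 * N + t) * y :=
      h.trans_eq (by field_simp)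
    calc (coef1 Φ y * d2 δ Z1 y) ^ 2 = |coef1 Φ y * d2 δ Z1 y| ^ 2 := (sq_abs _).symm
      _ ≤ (Real.sqrt (3 * N + t) * y) ^ 2 := pow_le_pow_left₀ (abs_nonneg _) h' 2
      _ = (3 * N + t) * y ^ 2 := by rw [mul_pow, Real.sq_sqrt (by linarith)]
  refine le_of_forall_pos_le_add (fun r hr => ?_)
  have h := key (r / y ^ 2) (div_pos hr (pow_pos hy0 2))
  rw [add_mul, div_mul_cancel₀ _ (pow_ne_zero 2 hy0.ne')] at h
  linarith

theorem flux_sup {C e : ℝ} (hB : Box σ R M δ M' G m) (hS : Slice σ R M Φ V Z1 Z2) (he : 0 < e)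
    (hC : (∫ z in (0:ℝ)..16 * R,
      z ^ 3 * (th2 R z ^ 8 * (cdrift (16 * R) Z1 z - Z2 z) ^ 2)) ≤ C ^ 2 * e ^ 2) (hC0 : 0 < C)
    {y : ℝ} (hy : y ∈ Ioo 0 (16 * R)) :
    th2 R y ^ 4 * |coef1 Φ y * d2 (16 * R) Z1 y| ≤ C * e := by
  have hR : 0 < R := by linarith [hB.R_one]
  have hY : 0 < 16 * R := by positivity
  obtain ⟨-, s1, s2, sΦ⟩ := hS.mono (Y := 16 * R) (by linarith)
  have hF : ContDiffOn ℝ ∞ (fun z => coef1 Φ z * d2 (16 * R) Z1 z) (Icc 0 (16 * R)) :=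
    (sΦ.mul sΦ).mul (smooth_d2 hY s1)
  have hA : (∫ z in (0:ℝ)..16 * R, th2 R z ^ 8 * z ^ 3 * (cdrift (16 * R) Z1 z - Z2 z) ^ 2)
      ≤ (C * e) ^ 2 := by
    rw [mul_pow]
    refine le_of_eq_of_le (intervalIntegral.integral_congr (fun z _ => ?_)) hC
    ring
  have h := (inv_weighted hY hF (cut_smooth _).continuous (cut_nonneg _)
    (fun z w hzw => cut_anti (by positivity) hzw)
    (g := fun z => cdrift (16 * R) Z1 z - Z2 z)
    ((smooth_cdrift hY s1).continuousOn.sub s2.continuousOn)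
    (fun z hz => by linarith [hS.eq2' (Y := 16 * R) (by linarith) hz]) 3 6 (by norm_num) (by norm_num)
    (mul_pos hC0 he) hA hy).1
  refine h.trans_eq ?_
  have := hy.1.ne'
  field_simp

/-- Bounds of a slice on `(0, 8 R)`. -/
theorem slice_sup (hCo : Energy.CoerciveTarget) (hFo : Energy.ForcingTarget)
    (hIn : Energy.InterpTarget) :
    ∃ δ₀ : ℝ, 0 < δ₀ ∧ ∀ (σ : Shrinker) (R M δ M' G m : ℝ), δ ≤ δ₀ → Box σ R M δ M' G m →
      ∃ C : ℝ, 0 < C ∧ ∀ Φ V Z1 Z2, Slice σ R M Φ V Z1 Z2 → ∀ e : ℝ, 0 < e →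
        size R V Z1 Z2 ≤ e ^ 2 →
        (∀ y ∈ Ioo 0 (16 * R), th2 R y ^ 4 * |coef1 Φ y * d2 (16 * R) Z1 y| ≤ C * e) ∧
        ∀ y ∈ Ioo 0 (8 * R),
          |y * σ.q y - Φ y| ≤ C * e * (y * Real.sqrt y) ∧
          |d1 (8 * R) (fun z => z * σ.q z - Φ z) y| ≤ C * e * Real.sqrt y ∧
          |dst (fun z => z * σ.q z - Φ z) y| ≤ C * e / Real.sqrt y := by
  obtain ⟨δ₀, hδ₀, hlow⟩ := slice_low hCo hFo hIn
  refine ⟨δ₀, hδ₀, fun σ R M δ M' G m hδ0 hB => ?_⟩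
  obtain ⟨C0, hC0, hl⟩ := hlow σ R M δ M' G m hδ0 hB
  have hR : 0 < R := by linarith [hB.R_one]
  have hm := hB.m_pos
  set K := Real.sqrt C0 + 1 with hK
  have hK1 : 1 ≤ K := le_add_of_nonneg_left (Real.sqrt_nonneg _)
  have hK2 : C0 ≤ K ^ 2 := by
    nlinarith [Real.sq_sqrt hC0.le, Real.sqrt_nonneg C0]
  set B := 8 * R with hBdef
  set Q := max K (K / m) with hQ
  have hQ0 : 0 < Q := lt_max_of_lt_left (by linarith)
  have hB3 : 3 ≤ B := by rw [hBdef]; linarith [hB.R_one]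
  have hB0 : 0 < B := by linarith
  set A := 30 * B ^ 3 * Q with hA
  have hA0 : 0 < A := by positivity
  refine ⟨K + 8 * A, by positivity, fun Φ V Z1 Z2 hS e he hsz => ?_⟩
  obtain ⟨-, -, hI3, hI4, hI5, hI6⟩ := hl Φ V Z1 Z2 hS
  have hle : C0 * size R V Z1 Z2 ≤ K ^ 2 * e ^ 2 :=
    mul_le_mul hK2 hsz (by
      obtain ⟨a, b, c⟩ := size_nonneg hR.le V Z1 Z2
      exact add_nonneg (add_nonneg a b) c) (sq_nonneg K)
  have hflux : ∀ y ∈ Ioo 0 (16 * R), th2 R y ^ 4 * |coef1 Φ y * d2 (16 * R) Z1 y| ≤ K * e :=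
    fun y hy => flux_sup hB hS he (hI3.trans hle) (by linarith) hy
  refine ⟨fun y hy => (hflux y hy).trans
    (mul_le_mul_of_nonneg_right (by linarith) he.le), ?_⟩
  obtain ⟨sV, s1, -, sΦ⟩ := hS.mono (Y := B) (by rw [hBdef]; linarith)
  have hF : ContDiffOn ℝ ∞ (fun z => z * σ.q z - Φ z) (Icc 0 B) :=
    (shrinker_smooth σ B).sub sΦ
  have hg0c : ContinuousOn (fun z => cdrift B V z - Z1 z) (Icc 0 B) :=
    (smooth_cdrift hB0 sV).continuousOn.sub s1.continuousOn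
  have hb64 : B ≤ 64 * R := by rw [hBdef]; linarith
  have hdst : ∀ z ∈ Ioo 0 B, dst (fun z => z * σ.q z - Φ z) z = cdrift B V z - Z1 z :=
    fun z hz => by
      rw [cdrift_restrict hb64 hS.smV hz]
      linarith [hS.eq1 z ⟨hz.1, hz.2.trans_le hb64⟩]
  have hlow' := (hB.coef Φ hS.prof B hb64).2.2
  have hPhi : ∀ z ∈ Ioo 0 B, |z * σ.q z - Φ z| ≤ K * e := fun z hz => by
    have h := (inv_weighted (θ := fun _ => (1:ℝ)) hB0 hF continuous_const (fun _ => zero_le_one)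
      (fun _ _ _ => le_rfl) hg0c hdst 3 6 (by norm_num) (by norm_num)
      (mul_pos (by linarith) he : 0 < K * e) ?_ hz).1
    · rw [one_pow, one_mul] at h
      have := hz.1.ne'
      exact h.trans_eq (by field_simp)
    · rw [mul_pow]
      refine le_of_eq_of_le (intervalIntegral.integral_congr (fun z _ => ?_)) (hI4.trans hle)
      ring
  have hQe : K * e / m ≤ Q * e := by
    rw [mul_div_right_comm]
    exact mul_le_mul_of_nonneg_right (le_max_right _ _) he.le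
  have hKQ : (K * e) ^ 2 ≤ (Q * e) ^ 2 :=
    pow_le_pow_left₀ (mul_nonneg (by linarith) he.le)
      (mul_le_mul_of_nonneg_right (le_max_left _ _) he.le) 2
  have div_step : ∀ z ∈ Ioo 0 B, ∀ a x : ℝ, m * z ^ 2 ≤ a → |a * x| ≤ K * e →
      |x| ≤ Q * e / z ^ 2 := fun z hz a x ha hx => by
    have hz2 : 0 < z ^ 2 := pow_pos hz.1 2
    rw [le_div_iff₀ hz2]
    refine le_trans ?_ hQe
    rw [le_div_iff₀ hm]
    have ha0 : 0 ≤ a := le_trans (by positivity) ha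
    rw [abs_mul, abs_of_nonneg ha0] at hx
    nlinarith [mul_le_mul_of_nonneg_right ha (abs_nonneg x)]
  have hb16 : B ≤ 16 * R := by rw [hBdef]; linarith
  have pV := fun z (hz : z ∈ Ioo 0 B) => point_bound (e := Q * e) hB3 sV (by positivity)
    ((hI5.trans hle).trans (by rw [← mul_pow]; exact hKQ))
    (fun r hr => div_step r hr _ _ (hlow' r (Ioo_subset_Icc_self hr)).1 (by
      rw [d2_restrict hb64 hS.smV hr, ← hS.second r ⟨hr.1, hr.2.trans_le hb64⟩]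
      exact hPhi r hr)) hz
  have pZ := fun z (hz : z ∈ Ioo 0 B) => point_bound (e := Q * e) hB3 s1 (by positivity)
    ((hI6.trans hle).trans (by rw [← mul_pow]; exact hKQ))
    (fun r hr => div_step r hr _ _ (hlow' r (Ioo_subset_Icc_self hr)).2 (by
      have h := hflux r ⟨hr.1, hr.2.trans_le hb16⟩
      rw [(th_one hR).2.2 (by linarith [hr.2]), one_pow, one_mul,
        d2_restrict (b := 16 * R) (Y := 16 * R) le_rfl
          (hS.mono (Y := 16 * R) (by linarith)).2.1 ⟨hr.1, hr.2.trans_le hb16⟩] at h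
      rwa [← d2_restrict (b := 16 * R) hb16 (hS.mono (Y := 16 * R) (by linarith)).2.1 hr] at h)) hz
  have hg0 : ∀ z ∈ Ioo 0 B, |cdrift B V z - Z1 z| ≤ A * e / Real.sqrt z := fun z hz => by
    obtain ⟨v0, v1⟩ := pV z hz
    obtain ⟨w0, -⟩ := pZ z hz
    calc |cdrift B V z - Z1 z| ≤ |V z| + |z * d1 B V z| + |Z1 z| := by
          have := abs_le.1 (le_refl |V z|)
          have := abs_le.1 (le_refl |z * d1 B V z|)
          have := abs_le.1 (le_refl |Z1 z|)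
          rw [abs_le, cdrift]
          constructor <;> linarith [abs_nonneg (V z), abs_nonneg (z * d1 B V z)]
      _ ≤ 10 * B ^ 3 * (Q * e) / Real.sqrt z + 10 * B ^ 3 * (Q * e) / Real.sqrt z
          + 10 * B ^ 3 * (Q * e) / Real.sqrt z := by gcongr
      _ = A * e / Real.sqrt z := by rw [hA]; ring
  intro y hy
  obtain ⟨b1, b2⟩ := inv_point hB0 hF hg0c hdst (mul_nonneg hA0.le he.le) hg0 hy
  have hAe : A * e ≤ (K + 8 * A) * e := mul_le_mul_of_nonneg_right (by linarith) he.le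
  have h8 : 8 * (A * e) ≤ (K + 8 * A) * e := by nlinarith
  have hsy := Real.sqrt_nonneg y
  refine ⟨b1.trans (mul_le_mul_of_nonneg_right hAe (mul_nonneg hy.1.le hsy)),
    b2.trans (mul_le_mul_of_nonneg_right h8 hsy), ?_⟩
  rw [hdst y hy]
  exact (hg0 y hy).trans (div_le_div_of_nonneg_right hAe hsy)

end Vale.Agent.P264.Inner
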