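import Vale.Agent.P264.Inner.Basic

/-!
Inversion of `dst F = g` from the origin, and pointwise bounds from `|U''| ≤ e / y^2`.
-/

namespace Vale.Agent.P264.Inner

open Set Filter MeasureTheory
open scoped ContDiff Topology

variable {Y : ℝ} {F g θ : ℝ → ℝ}

theorem wronk_eq_integral (hY : 0 < Y) (hF : ContDiffOn ℝ ∞ F (Icc 0 Y))
    (hg : ContinuousOn g (Icc 0 Y)) (h : ∀ y ∈ Ioo 0 Y, dst F y = g y) {y : ℝ}
    (hy : y ∈ Icc 0 Y) : wronk Y F y = ∫ z in (0:ℝ)..y, z ^ 7 * g z := by
  have c0 := hF.continuousOn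
  have c1 := (smooth_d1 hY hF).continuousOn
  have hc : ContinuousOn (wronk Y F) (Icc 0 Y) := by
    unfold wronk
    fun_prop
  rw [intervalIntegral.integral_eq_sub_of_hasDerivAt_of_le hy.1
    (hc.mono (Icc_subset_Icc le_rfl hy.2)) (f' := fun z => z ^ 7 * g z) ?_
    (II.of_cont hy.1 ?_)]
  · simp [wronk]
  · intro z hz
    have hz' : z ∈ Ioo 0 Y := ⟨hz.1, hz.2.trans_le hy.2⟩
    have := hz'.1.ne'
    refine (hasDerivAt_wronk hY hF hz').congr_deriv ?_
    rw [← h z hz', dst, deriv_wronk2 hY hF hz']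
    field_simp
  · exact ((continuous_pow 7).continuousOn).mul (hg.mono (Icc_subset_Icc le_rfl hy.2))

theorem pow_seven_eq_integral (hY : 0 < Y) (hF : ContDiffOn ℝ ∞ F (Icc 0 Y)) {y : ℝ}
    (hy : y ∈ Icc 0 Y) : y ^ 7 * F y = ∫ z in (0:ℝ)..y, wronk Y F z := by
  have c0 := hF.continuousOn
  have c1 := (smooth_d1 hY hF).continuousOn
  rw [intervalIntegral.integral_eq_sub_of_hasDerivAt_of_le hy.1
    (f := fun z => z ^ 7 * F z) (f' := wronk Y F)
    (((continuous_pow 7).continuousOn.mul c0).mono (Icc_subset_Icc le_rfl hy.2)) ?_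
    (II.of_cont hy.1 ?_)]
  · simp
  · exact fun z hz => hasDerivAt_wronk0 hF ⟨hz.1, hz.2.trans_le hy.2⟩
  · refine ContinuousOn.mono ?_ (Icc_subset_Icc le_rfl hy.2)
    unfold wronk
    fun_prop

/-- A monotone bound for the first derivative of `y^7 F` gives bounds for `F` and `F'`. -/
theorem of_wronk_bound (hY : 0 < Y) (hF : ContDiffOn ℝ ∞ F (Icc 0 Y))
    (hθ0 : ∀ z, 0 ≤ θ z) (hanti : ∀ z w, z ≤ w → θ w ≤ θ z) {e : ℝ} (he : 0 ≤ e) {H : ℝ → ℝ}
    (hH : ∀ z w, 0 ≤ z → z ≤ w → H z ≤ H w) 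
    (hw : ∀ z ∈ Ioo 0 Y, θ z ^ 4 * |wronk Y F z| ≤ e * H z) {y : ℝ} (hy : y ∈ Ioo 0 Y) :
    θ y ^ 4 * |F y| ≤ e * H y / y ^ 6 ∧ θ y ^ 4 * |d1 Y F y| ≤ 8 * (e * H y) / y ^ 7 := by
  have hy0 := hy.1
  have hθy := hθ0 y
  have c0 := hF.continuousOn
  have c1 := (smooth_d1 hY hF).continuousOn
  have cw : ContinuousOn (wronk Y F) (Icc 0 y) := by
    refine ContinuousOn.mono ?_ (Icc_subset_Icc le_rfl hy.2.le)
    unfold wronk
    fun_prop
  have hP : θ y ^ 4 * |y ^ 7 * F y| ≤ e * H y * y := by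
    rw [pow_seven_eq_integral hY hF (Ioo_subset_Icc_self hy)]
    calc θ y ^ 4 * |∫ z in (0:ℝ)..y, wronk Y F z|
        ≤ θ y ^ 4 * ∫ z in (0:ℝ)..y, |wronk Y F z| := by
          gcongr
          exact intervalIntegral.abs_integral_le_integral_abs hy0.le
      _ = ∫ z in (0:ℝ)..y, θ y ^ 4 * |wronk Y F z| := (intervalIntegral.integral_const_mul _ _).symm
      _ ≤ ∫ _z in (0:ℝ)..y, e * H y := by
          refine integral_le hy0.le (II.of_cont hy0.le (by fun_prop))
            (II.of_cont hy0.le continuousOn_const) (fun z hz => ?_)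
          calc θ y ^ 4 * |wronk Y F z| ≤ θ z ^ 4 * |wronk Y F z| := by
                gcongr
                exact hanti z y hz.2.le
            _ ≤ e * H z := hw z ⟨hz.1, hz.2.trans hy.2⟩
            _ ≤ e * H y := mul_le_mul_of_nonneg_left (hH z y hz.1.le hz.2.le) he
      _ = e * H y * y := by
          rw [intervalIntegral.integral_const]
          simp [mul_comm]
  rw [abs_mul, abs_of_pos (pow_pos hy0 7)] at hP
  have hF' : θ y ^ 4 * |F y| ≤ e * H y / y ^ 6 := by
    rw [le_div_iff₀ (pow_pos hy0 6)]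
    refine le_of_mul_le_mul_right ?_ hy0
    linarith
  refine ⟨hF', ?_⟩
  have hd : |d1 Y F y| * y ^ 7 ≤ |wronk Y F y| + 7 * y ^ 6 * |F y| := by
    have h1 : d1 Y F y * y ^ 7 = wronk Y F y - 7 * y ^ 6 * F y := by
      rw [wronk]
      ring
    calc |d1 Y F y| * y ^ 7 = |d1 Y F y * y ^ 7| := by rw [abs_mul, abs_of_pos (pow_pos hy0 7)]
      _ = |wronk Y F y - 7 * y ^ 6 * F y| := by rw [h1]
      _ ≤ |wronk Y F y| + |7 * y ^ 6 * F y| := abs_sub _ _
      _ = _ := by rw [abs_mul, abs_of_pos (by positivity : 0 < 7 * y ^ 6)]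
  rw [le_div_iff₀ (pow_pos hy0 7)]
  have h2 := mul_le_mul_of_nonneg_left hd (pow_nonneg hθy 4)
  have h3 : θ y ^ 4 * |F y| * y ^ 6 ≤ e * H y := (le_div_iff₀ (pow_pos hy0 6)).1 hF'
  have h4 := hw y hy
  linarith

/-- Square integrable right hand side, weight `y^k`. -/
theorem inv_weighted (hY : 0 < Y) (hF : ContDiffOn ℝ ∞ F (Icc 0 Y)) (hθc : Continuous θ)
    (hθ0 : ∀ z, 0 ≤ θ z) (hanti : ∀ z w, z ≤ w → θ w ≤ θ z)
    (hg : ContinuousOn g (Icc 0 Y)) (h : ∀ y ∈ Ioo 0 Y, dst F y = g y) (k p : ℕ)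
    (hkp : 2 * p + k = 15) (hk : k ≤ 14) {e : ℝ} (he : 0 < e)
    (hA : (∫ z in (0:ℝ)..Y, θ z ^ 8 * z ^ k * g z ^ 2) ≤ e ^ 2) {y : ℝ} (hy : y ∈ Ioo 0 Y) :
    θ y ^ 4 * |F y| ≤ e * y ^ p / y ^ 6 ∧ θ y ^ 4 * |d1 Y F y| ≤ 8 * (e * y ^ p) / y ^ 7 := by
  refine of_wronk_bound hY hF hθ0 hanti he.le (H := fun z => z ^ p)
    (fun z w hz hzw => pow_le_pow_left₀ hz hzw p) ?_ hy
  intro w hw
  have hw0 := hw.1
  have hsub : Icc 0 w ⊆ Icc 0 Y := Icc_subset_Icc le_rfl hw.2.le
  rw [wronk_eq_integral hY hF hg h (Ioo_subset_Icc_self hw)]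
  have hwp : (0:ℝ) < w ^ p := pow_pos hw0 p
  have hg' := hg.mono hsub
  have hθ' := hθc.continuousOn (s := Icc 0 w)
  calc θ w ^ 4 * |∫ z in (0:ℝ)..w, z ^ 7 * g z|
      ≤ θ w ^ 4 * ∫ z in (0:ℝ)..w, |z ^ 7 * g z| := by
        have := hθ0 w
        gcongr
        exact intervalIntegral.abs_integral_le_integral_abs hw0.le
    _ = ∫ z in (0:ℝ)..w, θ w ^ 4 * |z ^ 7 * g z| := (intervalIntegral.integral_const_mul _ _).symm
    _ ≤ ∫ z in (0:ℝ)..w, (w ^ p / (2 * e) * (θ z ^ 8 * z ^ k * g z ^ 2)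
          + e / (2 * w ^ p) * w ^ (14 - k)) := by
        refine integral_le hw0.le (II.of_cont hw0.le (by fun_prop))
          (II.of_cont hw0.le (by fun_prop)) (fun z hz => ?_)
        have hz0 := hz.1.le
        have hθz := hθ0 z
        calc θ w ^ 4 * |z ^ 7 * g z| ≤ θ z ^ 4 * |z ^ 7 * g z| := by
              have := hθ0 w
              gcongr
              exact hanti z w hz.2.le
          _ ≤ w ^ p / (2 * e) * (θ z ^ 8 * z ^ k * g z ^ 2)
              + e / (2 * w ^ p) * z ^ (14 - k) := by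
              set A := w ^ p / (2 * e) * (θ z ^ 8 * z ^ k * g z ^ 2)
              set B := e / (2 * w ^ p) * z ^ (14 - k)
              have hA0 : 0 ≤ A := by positivity
              have hB0 : 0 ≤ B := by positivity
              have hsq : (θ z ^ 4 * |z ^ 7 * g z|) ^ 2 = 4 * (A * B) := by
                have hz14 : z ^ k * z ^ (14 - k) = z ^ 14 := by
                  rw [← pow_add]
                  congr 1
                  omega
                rw [mul_pow, sq_abs]
                calc (θ z ^ 4) ^ 2 * (z ^ 7 * g z) ^ 2 = θ z ^ 8 * g z ^ 2 * z ^ 14 := by ring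
                  _ = θ z ^ 8 * g z ^ 2 * (z ^ k * z ^ (14 - k)) := by rw [hz14]
                  _ = _ := by
                      simp only [A, B]
                      field_simp
                      ring
              nlinarith [sq_nonneg (A - B)]
          _ ≤ _ := by gcongr; exact hz.2.le
    _ = w ^ p / (2 * e) * (∫ z in (0:ℝ)..w, θ z ^ 8 * z ^ k * g z ^ 2)
          + e / (2 * w ^ p) * w ^ (14 - k) * w := by
        rw [intervalIntegral.integral_add (II.of_cont hw0.le (by fun_prop))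
          (II.of_cont hw0.le (by fun_prop)), intervalIntegral.integral_const_mul,
          intervalIntegral.integral_const]
        simp only [sub_zero, smul_eq_mul]
        ring
    _ ≤ w ^ p / (2 * e) * e ^ 2 + e / (2 * w ^ p) * w ^ (14 - k) * w := by
        gcongr
        refine le_trans ?_ hA
        refine intervalIntegral.integral_mono_interval le_rfl hw0.le hw.2.le ?_
          (II.of_cont hY.le (by fun_prop))
        refine (ae_restrict_iff' measurableSet_Ioc).2 (ae_of_all _ fun z hz => ?_)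
        have := hz.1
        have := hθ0 z
        simp only [Pi.zero_apply]
        positivity
    _ = e * w ^ p := by
        have h15 : w ^ (14 - k) * w = w ^ p * w ^ p := by
          rw [← pow_succ, ← pow_add]
          congr 1
          omega
        calc _ = w ^ p / (2 * e) * e ^ 2 + e / (2 * w ^ p) * (w ^ (14 - k) * w) := by ring
          _ = _ := by
              rw [h15]
              field_simp
              ring

/-- Pointwise right hand side of size `y^(-1/2)`. -/
theorem inv_point (hY : 0 < Y) (hF : ContDiffOn ℝ ∞ F (Icc 0 Y))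
    (hg : ContinuousOn g (Icc 0 Y)) (h : ∀ y ∈ Ioo 0 Y, dst F y = g y) {e : ℝ} (he : 0 ≤ e)
    (hb : ∀ z ∈ Ioo 0 Y, |g z| ≤ e / Real.sqrt z) {y : ℝ} (hy : y ∈ Ioo 0 Y) :
    |F y| ≤ e * (y * Real.sqrt y) ∧ |d1 Y F y| ≤ 8 * e * Real.sqrt y := by
  have hy0 := hy.1
  have hs0 : 0 ≤ Real.sqrt y := Real.sqrt_nonneg y
  have key : ∀ w ∈ Ioo 0 Y, (1:ℝ) ^ 4 * |wronk Y F w| ≤ e * (w ^ 7 * Real.sqrt w) := by
    intro w hw
    have hw0 := hw.1
    have hg' := hg.mono (Icc_subset_Icc le_rfl hw.2.le : Icc 0 w ⊆ Icc 0 Y)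
    rw [one_pow, one_mul, wronk_eq_integral hY hF hg h (Ioo_subset_Icc_self hw)]
    calc |∫ z in (0:ℝ)..w, z ^ 7 * g z| ≤ ∫ z in (0:ℝ)..w, |z ^ 7 * g z| :=
          intervalIntegral.abs_integral_le_integral_abs hw0.le
      _ ≤ ∫ _z in (0:ℝ)..w, e * (w ^ 6 * Real.sqrt w) := by
          refine integral_le hw0.le (II.of_cont hw0.le (by fun_prop))
            (II.of_cont hw0.le continuousOn_const) (fun z hz => ?_)
          have hz0 := hz.1
          have hs : 0 < Real.sqrt z := Real.sqrt_pos.2 hz0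
          have hb' := hb z ⟨hz0, hz.2.trans hw.2⟩
          rw [le_div_iff₀ hs] at hb'
          rw [abs_mul, abs_of_pos (pow_pos hz0 7)]
          calc z ^ 7 * |g z| = z ^ 6 * Real.sqrt z * (|g z| * Real.sqrt z) := by
                rw [mul_mul_mul_comm, mul_comm (Real.sqrt z) (Real.sqrt z),
                  Real.mul_self_sqrt hz0.le]
                ring
            _ ≤ z ^ 6 * Real.sqrt z * e := by gcongr
            _ ≤ w ^ 6 * Real.sqrt w * e := by
                gcongr
                · exact hz.2.le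
                · exact hz.2.le
            _ = _ := by ring
      _ = _ := by
          rw [intervalIntegral.integral_const]
          simp only [sub_zero, smul_eq_mul]
          ring
  have := of_wronk_bound (θ := fun _ => (1:ℝ)) hY hF (fun _ => zero_le_one) (fun _ _ _ => le_rfl)
    he (H := fun z => z ^ 7 * Real.sqrt z)
    (fun z w hz hzw => mul_le_mul (pow_le_pow_left₀ hz hzw 7) (Real.sqrt_le_sqrt hzw)
      (Real.sqrt_nonneg _) (pow_nonneg (hz.trans hzw) 7))
    key hy
  simp only [one_pow, one_mul] at this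
  refine ⟨this.1.trans_eq ?_, this.2.trans_eq ?_⟩
  · field_simp
  · field_simp

theorem comparison {f f' H H' : ℝ → ℝ} {a b : ℝ} (hab : a ≤ b)
    (hf : ∀ z ∈ Icc a b, HasDerivAt f (f' z) z) (hH : ∀ z ∈ Icc a b, HasDerivAt H (H' z) z)
    (h : ∀ z ∈ Icc a b, |f' z| ≤ -H' z) : |f b - f a| ≤ H a - H b := by
  have m1 : f a + H a ≥ f b + H b :=
    antitoneOn_of_deriv_nonpos (convex_Icc a b)
      (fun z hz => ((hf z hz).fun_add (hH z hz)).continuousAt.continuousWithinAt)
      (fun z hz => ((hf z (interior_subset hz)).fun_add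
        (hH z (interior_subset hz))).differentiableAt.differentiableWithinAt)
      (fun z hz => by
        rw [((hf z (interior_subset hz)).fun_add (hH z (interior_subset hz))).deriv]
        linarith [(abs_le.1 (h z (interior_subset hz))).2])
      (left_mem_Icc.2 hab) (right_mem_Icc.2 hab) hab
  have m2 : -f a + H a ≥ -f b + H b :=
    antitoneOn_of_deriv_nonpos (convex_Icc a b)
      (fun z hz => ((hf z hz).fun_neg.fun_add (hH z hz)).continuousAt.continuousWithinAt)
      (fun z hz => ((hf z (interior_subset hz)).fun_neg.fun_add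
        (hH z (interior_subset hz))).differentiableAt.differentiableWithinAt)
      (fun z hz => by
        rw [((hf z (interior_subset hz)).fun_neg.fun_add (hH z (interior_subset hz))).deriv]
        linarith [(abs_le.1 (h z (interior_subset hz))).1])
      (left_mem_Icc.2 hab) (right_mem_Icc.2 hab) hab
  rw [abs_le]
  constructor <;> linarith

/-- `|U''| ≤ e / y^2` and an `L^2` bound give logarithmic growth at the origin. -/
theorem point_bound {U : ℝ → ℝ} {B : ℝ} (hB : 3 ≤ B) (hU : ContDiffOn ℝ ∞ U (Icc 0 B)) {e : ℝ}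
    (he : 0 ≤ e) (hA : (∫ z in (0:ℝ)..B, z ^ 3 * (U z ^ 2 + (z * d1 B U z) ^ 2)) ≤ e ^ 2)
    (hb : ∀ z ∈ Ioo 0 B, |d2 B U z| ≤ e / z ^ 2) {y : ℝ} (hy : y ∈ Ioo 0 B) :
    |U y| ≤ 10 * B ^ 3 * e / Real.sqrt y ∧ |y * d1 B U y| ≤ 10 * B ^ 3 * e / Real.sqrt y := by
  have hB0 : 0 < B := by linarith
  have c0 := hU.continuousOn
  have c1 := (smooth_d1 hB0 hU).continuousOn
  have h12 : Icc (1:ℝ) 2 ⊆ Icc 0 B := Icc_subset_Icc zero_le_one (by linarith)
  obtain ⟨w, hw, hmin⟩ := isCompact_Icc.exists_isMinOn (nonempty_Icc.2 (by norm_num : (1:ℝ) ≤ 2))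
    (((c0.pow 2).add (c1.pow 2)).mono h12)
  have hsum : U w ^ 2 + d1 B U w ^ 2 ≤ e ^ 2 := by
    refine le_trans ?_ hA
    have hcont : ContinuousOn (fun z => z ^ 3 * (U z ^ 2 + (z * d1 B U z) ^ 2)) (Icc 0 B) := by
      fun_prop
    calc U w ^ 2 + d1 B U w ^ 2 = ∫ _z in (1:ℝ)..2, (U w ^ 2 + d1 B U w ^ 2) := by
          rw [intervalIntegral.integral_const]
          norm_num
      _ ≤ ∫ z in (1:ℝ)..2, z ^ 3 * (U z ^ 2 + (z * d1 B U z) ^ 2) := by
          refine intervalIntegral.integral_mono_on (by norm_num) intervalIntegrable_const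
            ((hcont.mono h12).intervalIntegrable_of_Icc (by norm_num)) (fun z hz => ?_)
          have := hmin hz
          simp only [mem_ofPred_eq, Pi.add_apply, Pi.pow_apply] at this
          have h3 : 1 ≤ z ^ 3 := one_le_pow₀ hz.1
          have h2 : d1 B U z ^ 2 ≤ (z * d1 B U z) ^ 2 := by
            rw [mul_pow]
            exact le_mul_of_one_le_left (sq_nonneg _) (one_le_pow₀ hz.1)
          calc U w ^ 2 + d1 B U w ^ 2 ≤ U z ^ 2 + d1 B U z ^ 2 := this
            _ ≤ U z ^ 2 + (z * d1 B U z) ^ 2 := by gcongr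
            _ ≤ _ := le_mul_of_one_le_left (by positivity) h3
      _ ≤ _ := intervalIntegral.integral_mono_interval zero_le_one (by norm_num) (by linarith)
          ((ae_restrict_iff' measurableSet_Ioc).2 (ae_of_all _ fun z hz => by
            have := hz.1
            simp only [Pi.zero_apply]
            positivity)) (hcont.intervalIntegrable_of_Icc hB0.le)
  have hUw : |U w| ≤ e := abs_le_of_sq_le_sq (by nlinarith [sq_nonneg (d1 B U w)]) he
  have hDw : |d1 B U w| ≤ e := abs_le_of_sq_le_sq (by nlinarith [sq_nonneg (U w)]) he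
  have hw0 : w ∈ Ioo 0 B := ⟨by linarith [hw.1], by linarith [hw.2]⟩
  have hD : ∀ z ∈ Ioo 0 B, |d1 B U z| ≤ (2 * B + 1) * e / z := by
    intro z hz
    have hH : ∀ r ∈ Ioo 0 B, HasDerivAt (fun r => e / r) (-(e / r ^ 2)) r := fun r hr => by
      have := (hasDerivAt_const r e).fun_div (hasDerivAt_id r) hr.1.ne'
      refine this.congr_deriv ?_
      simp
      ring
    have hcmp : |d1 B U z - d1 B U w| ≤ e / z + e := by
      have hwe : e / w ≤ e := div_le_self he hw.1
      have hze : 0 ≤ e / z := div_nonneg he hz.1.le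
      have hwe0 : 0 ≤ e / w := div_nonneg he hw0.1.le
      rcases le_total z w with h | h
      · have hs : Icc z w ⊆ Ioo 0 B := fun r hr => ⟨hz.1.trans_le hr.1, hr.2.trans_lt hw0.2⟩
        have := comparison h (fun r hr => hasDerivAt_d1 (smooth_d1 hB0 hU) (hs hr))
          (fun r hr => hH r (hs hr)) (fun r hr => by rw [neg_neg]; exact hb r (hs hr))
        rw [abs_sub_comm]
        linarith
      · have hs : Icc w z ⊆ Ioo 0 B := fun r hr => ⟨hw0.1.trans_le hr.1, hr.2.trans_lt hz.2⟩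
        have := comparison h (fun r hr => hasDerivAt_d1 (smooth_d1 hB0 hU) (hs hr))
          (fun r hr => hH r (hs hr)) (fun r hr => by rw [neg_neg]; exact hb r (hs hr))
        linarith
    have h1 : 2 * e ≤ 2 * B * e / z := by
      rw [le_div_iff₀ hz.1]
      nlinarith [hz.2, hz.1]
    have h2 : (2 * B + 1) * e / z = 2 * B * e / z + e / z := by ring
    have := abs_sub_abs_le_abs_sub (d1 B U z) (d1 B U w)
    linarith
  set K := (2 * B + 1) * B with hK
  have hK0 : 0 ≤ K := by positivity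
  have hD2 : ∀ z ∈ Ioo 0 B, |d1 B U z| ≤ K * e / (z * Real.sqrt z) := fun z hz => by
    have hs : 0 < Real.sqrt z := Real.sqrt_pos.2 hz.1
    have hsB : Real.sqrt z ≤ B := by
      rw [Real.sqrt_le_left hB0.le]
      nlinarith [hz.2, hz.1]
    refine (hD z hz).trans ?_
    rw [div_le_div_iff₀ hz.1 (mul_pos hz.1 hs)]
    calc (2 * B + 1) * e * (z * Real.sqrt z) ≤ (2 * B + 1) * e * (z * B) := by
          have := hz.1
          gcongr
      _ = K * e * z := by rw [hK]; ring
  have hy0 := hy.1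
  have hsy : 0 < Real.sqrt y := Real.sqrt_pos.2 hy0
  have hK10 : K ≤ 3 * B ^ 2 := by nlinarith
  constructor
  · have hH : ∀ r ∈ Ioo 0 B, HasDerivAt (fun r => 2 * K * e / Real.sqrt r)
        (-(K * e / (r * Real.sqrt r))) r := fun r hr => by
      have hs : Real.sqrt r ≠ 0 := (Real.sqrt_pos.2 hr.1).ne'
      have := (hasDerivAt_const r (2 * K * e)).fun_div (Real.hasDerivAt_sqrt hr.1.ne') hs
      refine this.congr_deriv ?_
      rw [Real.sq_sqrt hr.1.le]
      field_simp
      ring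
    have hsw : 1 ≤ Real.sqrt w := Real.one_le_sqrt.2 hw.1
    have hcmp : |U y - U w| ≤ 2 * K * e / Real.sqrt y + 2 * K * e := by
      have hwe : 2 * K * e / Real.sqrt w ≤ 2 * K * e := div_le_self (by positivity) hsw
      have hwe0 : 0 ≤ 2 * K * e / Real.sqrt w := by positivity
      have hye0 : 0 ≤ 2 * K * e / Real.sqrt y := by positivity
      rcases le_total y w with h | h
      · have hs : Icc y w ⊆ Ioo 0 B := fun r hr => ⟨hy0.trans_le hr.1, hr.2.trans_lt hw0.2⟩
        have := comparison h (fun r hr => hasDerivAt_d1 hU (hs hr))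
          (fun r hr => hH r (hs hr)) (fun r hr => by rw [neg_neg]; exact hD2 r (hs hr))
        rw [abs_sub_comm]
        linarith
      · have hs : Icc w y ⊆ Ioo 0 B := fun r hr => ⟨hw0.1.trans_le hr.1, hr.2.trans_lt hy.2⟩
        have := comparison h (fun r hr => hasDerivAt_d1 hU (hs hr))
          (fun r hr => hH r (hs hr)) (fun r hr => by rw [neg_neg]; exact hD2 r (hs hr))
        linarith
    have hsy2 : Real.sqrt y ^ 2 ≤ B := by
      rw [Real.sq_sqrt hy0.le]
      exact hy.2.le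
    have hsB : Real.sqrt y ≤ B / 2 + 1 / 2 := by nlinarith [sq_nonneg (Real.sqrt y - 1)]
    have := abs_sub_abs_le_abs_sub (U y) (U w)
    have hall : |U y| ≤ 2 * K * e / Real.sqrt y + (2 * K + 1) * e := by linarith
    have hall' := mul_le_mul_of_nonneg_right hall hsy.le
    rw [add_mul, div_mul_cancel₀ _ hsy.ne'] at hall'
    rw [le_div_iff₀ hsy]
    have h3 : (2 * K + 1) * e * Real.sqrt y ≤ (2 * K + 1) * e * B := by
      gcongr
      linarith
    have h4 : 2 * K + (2 * K + 1) * B ≤ 10 * B ^ 3 := by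
      nlinarith [mul_le_mul_of_nonneg_left hK10 hB0.le, mul_nonneg (mul_nonneg hB0.le hB0.le)
        (sub_nonneg.2 hB)]
    have h5 : |U y| * Real.sqrt y ≤ (2 * K + (2 * K + 1) * B) * e := by linarith
    refine h5.trans ?_
    exact mul_le_mul_of_nonneg_right h4 he
  · rw [abs_mul, abs_of_pos hy0, le_div_iff₀ hsy]
    have h1 := hD y hy
    rw [le_div_iff₀ hy0] at h1
    have hsB : Real.sqrt y ≤ B := by
      rw [Real.sqrt_le_left hB0.le]
      nlinarith [hy.2]
    calc y * |d1 B U y| * Real.sqrt y ≤ (2 * B + 1) * e * B := by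
          rw [mul_comm y]
          exact mul_le_mul h1 hsB (Real.sqrt_nonneg _) (by positivity)
      _ = K * e := by rw [hK]; ring
      _ ≤ 10 * B ^ 3 * e := by
          gcongr
          nlinarith

end Vale.Agent.P264.Inner
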