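import Vale.Agent.P264.Inner.Setting
import Vale.Agent.P264.Inner.Inversion

/-!
Pointwise-in-time bounds of a slice by its size: dissipations, the flux `Φ^2 Z1''`, and the
profile near the origin.
-/

namespace Vale.Agent.P264.Inner

open Set Filter MeasureTheory
open scoped ContDiff Topology

variable {σ : Shrinker} {R M δ M' G m : ℝ}

theorem th_pow_le {R : ℝ} (hR : 0 < R) {y : ℝ} (p q : ℕ) (hp : 0 < p) :
    th2 R y ^ p ≤ th1 R y ^ q := by
  rcases le_or_gt (16 * R) y with h | h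
  · rw [(th_zero hR).2.2 y h, zero_pow hp.ne']
    exact pow_nonneg (cut_nonneg _ _) q
  · rw [(th_one hR).2.1 h.le, one_pow]
    exact pow_le_one₀ (cut_nonneg _ _) (cut_le_one _ _)

/-- One pointwise level: the dissipation is controlled by the norms of `U` and `Un`. -/
theorem level_now (hCo : Energy.CoerciveTarget) (hFo : Energy.ForcingTarget)
    (hIn : Energy.InterpTarget) :
    ∃ δ₀ : ℝ, 0 < δ₀ ∧ ∀ M G δ m Y : ℝ, 0 < δ → δ ≤ δ₀ → δ ≤ Y → 0 < m →
      ∃ C : ℝ, 0 < C ∧ ∀ a κ U Un : ℝ → ℝ, Coef Y M δ a → Cut Y G δ κ →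
        (∀ y, Y ≤ y → κ y = 0) → κ 0 = 1 → (∀ y ∈ Icc 0 Y, m * y ^ 2 ≤ a y) →
        ContDiffOn ℝ ∞ U (Icc 0 Y) → ContinuousOn Un (Icc 0 Y) →
        (∀ y ∈ Ioo 0 Y, Un y = cdrift Y U y - dst (fun z => a z * d2 Y U z) y) →
        tot δ Y κ a U + (∫ y in (0:ℝ)..Y, κ y ^ 6 * rho 5 y * (y * d1 Y U y) ^ 2)
          ≤ C * (wsq 5 4 κ Y U + wsq 5 8 κ Y Un) := by
  obtain ⟨δ₀, hδ₀, hcore⟩ := core hCo hFo hIn
  refine ⟨δ₀, hδ₀, fun M G δ m Y hδ hδ0 hδY hm => ?_⟩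
  obtain ⟨c, C, hc, hC, hco⟩ := hcore M G δ m Y hδ hδ0 hδY hm
  obtain ⟨C2, hC2, hint⟩ := interp_d1 hIn (M := M) (G := G) (m := m) hδ hm hδY one_pos
  refine ⟨2 * ((C + 1) / c) + C2, by positivity, fun a κ U Un ha hκ hz h0 hl hU hUn heq => ?_⟩
  have hY : 0 < Y := hδ.trans_le hδY
  have cκ := hκ.smooth.continuous.continuousOn (s := Icc 0 Y)
  have cρ := (continuous_rho 5).continuousOn (s := Icc 0 Y)
  have c0 := hU.continuousOn
  have h := hco a κ U Un (fun _ => 0) (fun _ => 0) ha hκ hz h0 hl hU contDiffOn_const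
    continuousOn_const (fun y _ => (mul_zero _).symm)
    (fun y hy => by simpa only [add_zero] using heq y hy)
  have hf : fsq 5 κ Y a (fun _ => 0) = 0 := by simp [fsq]
  rw [hf, add_zero] at h
  have hpair : -(wsq 5 4 κ Y U + wsq 5 8 κ Y Un)
      ≤ ∫ y in (0:ℝ)..Y, κ y ^ 8 * rho 5 y * U y * Un y := by
    rw [wsq, wsq, ← intervalIntegral.integral_add (II.of_cont hY.le (by fun_prop))
      (II.of_cont hY.le (by fun_prop)), ← intervalIntegral.integral_neg]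
    refine integral_le hY.le (II.of_cont hY.le (by fun_prop)) (II.of_cont hY.le (by fun_prop))
      (fun y hy => ?_)
    have hr := rho_nonneg 5 hy.1.le
    have := hκ.nonneg y
    have h84 := mul_le_mul_of_nonneg_right (mul_le_mul_of_nonneg_right
      (cut_pow_le hκ (show 4 ≤ 8 by norm_num) y) hr) (sq_nonneg (U y))
    have hk : 0 ≤ κ y ^ 8 * rho 5 y := by positivity
    nlinarith [mul_nonneg hk (sq_nonneg (U y + Un y))]
  have hd : 0 ≤ diss 5 κ Y a U := diss_nonneg hY.le ha hκ.nonneg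
  have hn := near_nonneg hδ.le U
  have hw := wsq_nonneg hY.le (p := 4) (U := U) hκ.nonneg
  have hw8 := wsq_nonneg hY.le (p := 8) (U := Un) hκ.nonneg
  have hi := hint a κ U ha hκ hz hl hU
  have h1 : tot δ Y κ a U ≤ (C + 1) / c * (wsq 5 4 κ Y U + wsq 5 8 κ Y Un) := by
    rw [div_mul_eq_mul_div, le_div_iff₀ hc]
    nlinarith [mul_nonneg hC.le hw8]
  rw [tot] at h1 ⊢
  nlinarith [mul_nonneg hC2.le hw8]

theorem cube_bound {Y B : ℝ} (hY : 0 ≤ Y) (hB : Y ≤ B) {f g : ℝ → ℝ}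
    (hf : ContinuousOn f (Icc 0 Y)) (hg : ContinuousOn g (Icc 0 Y))
    (h : ∀ z ∈ Ioo 0 Y, f z ≤ g z) (hg0 : ∀ z ∈ Ioo 0 Y, 0 ≤ g z) :
    (∫ z in (0:ℝ)..Y, z ^ 3 * f z) ≤ (1 + B ^ 2) ^ 5 * ∫ z in (0:ℝ)..Y, rho 5 z * g z := by
  have cρ := (continuous_rho 5).continuousOn (s := Icc 0 Y)
  rw [← intervalIntegral.integral_const_mul]
  refine integral_le hY (II.of_cont hY (by fun_prop)) (II.of_cont hY (by fun_prop))
    (fun z hz => ?_)
  calc z ^ 3 * f z ≤ z ^ 3 * g z := mul_le_mul_of_nonneg_left (h z hz) (pow_nonneg hz.1.le 3)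
    _ ≤ (1 + B ^ 2) ^ 5 * rho 5 z * g z :=
        mul_le_mul_of_nonneg_right (pow_three_le_rho hz.1.le (hz.2.le.trans hB)) (hg0 z hz)
    _ = _ := mul_assoc _ _ _

theorem drift_sub_sq (U D W : ℝ) :
    (U / 2 - D / 2 - W) ^ 2 ≤ 3 * (U ^ 2 + D ^ 2 + W ^ 2) := by
  nlinarith [sq_nonneg (U / 2 + D / 2), sq_nonneg (U / 2 + W), sq_nonneg (D / 2 - W)]

/-- `cdrift U - W` in `L^2`, with the cutoff. -/
theorem drift_l2 {Y B G δ : ℝ} (hY : 0 < Y) (hB : Y ≤ B) {κ U W : ℝ → ℝ} (hκ : Cut Y G δ κ)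
    (hU : ContDiffOn ℝ ∞ U (Icc 0 Y)) (hW : ContinuousOn W (Icc 0 Y)) :
    (∫ z in (0:ℝ)..Y, z ^ 3 * (κ z ^ 8 * (cdrift Y U z - W z) ^ 2)) ≤
      3 * (1 + B ^ 2) ^ 5 * (wsq 5 4 κ Y U
        + (∫ y in (0:ℝ)..Y, κ y ^ 6 * rho 5 y * (y * d1 Y U y) ^ 2) + wsq 5 8 κ Y W) := by
  have cκ := hκ.smooth.continuous.continuousOn (s := Icc 0 Y)
  have cρ := (continuous_rho 5).continuousOn (s := Icc 0 Y)
  have c0 := hU.continuousOn
  have c1 := (smooth_d1 hY hU).continuousOn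
  have c2 := (smooth_cdrift hY hU).continuousOn
  refine (cube_bound (B := B) (g := fun z => 3 * (κ z ^ 4 * U z ^ 2
    + κ z ^ 6 * (z * d1 Y U z) ^ 2 + κ z ^ 8 * W z ^ 2))
    hY.le hB (by fun_prop) (by fun_prop) (fun z hz => ?_)
    (fun z hz => by
      have := hκ.nonneg z
      positivity)).trans_eq ?_
  · have h84 := mul_le_mul_of_nonneg_right (cut_pow_le hκ (show 4 ≤ 8 by norm_num) z)
      (sq_nonneg (U z))
    have h86 := mul_le_mul_of_nonneg_right (cut_pow_le hκ (show 6 ≤ 8 by norm_num) z)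
      (sq_nonneg (z * d1 Y U z))
    have := mul_le_mul_of_nonneg_left (drift_sub_sq (U z) (z * d1 Y U z) (W z))
      (pow_nonneg (hκ.nonneg z) 8)
    rw [cdrift]
    linarith
  · rw [wsq, wsq, ← intervalIntegral.integral_add (II.of_cont hY.le (by fun_prop))
      (II.of_cont hY.le (by fun_prop)), ← intervalIntegral.integral_add (II.of_cont hY.le
      (by fun_prop)) (II.of_cont hY.le (by fun_prop)), ← intervalIntegral.integral_const_mul,
      ← intervalIntegral.integral_const_mul]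
    exact intervalIntegral.integral_congr (fun z _ => by ring)

/-- A nonnegative integral only grows with the interval. -/
theorem integral_extend {X Y : ℝ} (hX : 0 ≤ X) (hXY : X ≤ Y) {f : ℝ → ℝ}
    (hf : ContinuousOn f (Icc 0 Y)) (hf0 : ∀ z ∈ Ioo 0 Y, 0 ≤ f z) :
    (∫ z in (0:ℝ)..X, f z) ≤ ∫ z in (0:ℝ)..Y, f z := by
  have hY : 0 ≤ Y := hX.trans hXY
  rw [intervalIntegral.integral_congr_Ioo_of_le hX (g := fun z => max (f z) 0)
    (fun z hz => (max_eq_left (hf0 z ⟨hz.1, hz.2.trans_le hXY⟩)).symm),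
    intervalIntegral.integral_congr_Ioo_of_le hY (g := fun z => max (f z) 0)
    (fun z hz => (max_eq_left (hf0 z hz)).symm)]
  exact intervalIntegral.integral_mono_interval le_rfl hX hXY
    (ae_of_all _ fun z => le_max_right _ _) (II.of_cont hY (hf.sup continuousOn_const))

/-- Both parts on an interval where the cutoff equals one. -/
theorem low_l2 {X Y B G δ : ℝ} (hX : 0 < X) (hXY : X ≤ Y) (hB : Y ≤ B) {κ U : ℝ → ℝ}
    (hκ : Cut Y G δ κ) (hone : ∀ z, z ≤ X → κ z = 1) (hU : ContDiffOn ℝ ∞ U (Icc 0 Y)) :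
    (∫ z in (0:ℝ)..X, z ^ 3 * (U z ^ 2 + (z * d1 X U z) ^ 2)) ≤
      (1 + B ^ 2) ^ 5 * (wsq 5 4 κ Y U
        + ∫ y in (0:ℝ)..Y, κ y ^ 6 * rho 5 y * (y * d1 Y U y) ^ 2) := by
  have hY : 0 < Y := hX.trans_le hXY
  have cκ := hκ.smooth.continuous.continuousOn (s := Icc 0 Y)
  have cρ := (continuous_rho 5).continuousOn (s := Icc 0 Y)
  have c0 := hU.continuousOn
  have c1 := (smooth_d1 hY hU).continuousOn
  have sub : Icc 0 X ⊆ Icc 0 Y := Icc_subset_Icc le_rfl hXY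
  have c0' := c0.mono sub
  have c1' := (smooth_d1 hX (hU.mono sub)).continuousOn
  refine (cube_bound hX.le (hXY.trans hB) (by fun_prop) (by fun_prop) (fun z _ => le_rfl)
    (fun z _ => by positivity)).trans (mul_le_mul_of_nonneg_left ?_ (by positivity))
  rw [wsq, ← intervalIntegral.integral_add (II.of_cont hY.le (by fun_prop))
    (II.of_cont hY.le (by fun_prop))]
  refine le_of_eq_of_le ?_ (integral_extend hX.le hXY (by fun_prop) (fun z hz => ?_))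
  · refine intervalIntegral.integral_congr_Ioo_of_le hX.le (fun z hz => ?_)
    rw [hone z hz.2.le, d1_restrict hXY hU hz]
    ring
  · have := hκ.nonneg z
    have := rho_nonneg 5 hz.1.le
    positivity

theorem drift_l2_restrict {X Y G δ : ℝ} (hX : 0 < X) (hXY : X ≤ Y) {κ U W : ℝ → ℝ}
    (hκ : Cut Y G δ κ) (hone : ∀ z, z ≤ X → κ z = 1) (hU : ContDiffOn ℝ ∞ U (Icc 0 Y))
    (hW : ContinuousOn W (Icc 0 Y)) :
    (∫ z in (0:ℝ)..X, z ^ 3 * (cdrift X U z - W z) ^ 2) ≤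
      ∫ z in (0:ℝ)..Y, z ^ 3 * (κ z ^ 8 * (cdrift Y U z - W z) ^ 2) := by
  have cκ := hκ.smooth.continuous.continuousOn (s := Icc 0 Y)
  have c2 := (smooth_cdrift (hX.trans_le hXY) hU).continuousOn
  refine le_of_eq_of_le ?_ (integral_extend hX.le hXY (by fun_prop) (fun z hz => ?_))
  · refine intervalIntegral.integral_congr_Ioo_of_le hX.le (fun z hz => ?_)
    rw [hone z hz.2.le, cdrift_restrict hXY hU hz, one_pow, one_mul]
  · have := hκ.nonneg z
    have := hz.1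
    positivity

theorem low_arith {P K S x : ℝ} (hP : 1 ≤ P) (hK : 0 ≤ K) (hS : 0 ≤ S) (hx : x ≤ K * S) :
    x ≤ 3 * P * K * S ∧ P * x ≤ 3 * P * K * S ∧ 3 * P * x ≤ 3 * P * K * S := by
  have h := mul_nonneg hK hS
  have h1 : 0 ≤ (P - 1) * (K * S) := mul_nonneg (by linarith) h
  have h2 := mul_le_mul_of_nonneg_left hx (by linarith : (0:ℝ) ≤ P)
  exact ⟨by linarith, by linarith, by linarith⟩

/-- Dissipations and lower order norms on the supports of the two inner cutoffs. -/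
theorem slice_low (hCo : Energy.CoerciveTarget) (hFo : Energy.ForcingTarget)
    (hIn : Energy.InterpTarget) :
    ∃ δ₀ : ℝ, 0 < δ₀ ∧ ∀ (σ : Shrinker) (R M δ M' G m : ℝ), δ ≤ δ₀ → Box σ R M δ M' G m →
      ∃ C : ℝ, 0 < C ∧ ∀ Φ V Z1 Z2, Slice σ R M Φ V Z1 Z2 →
        tot δ (32 * R) (th1 R) (coef0 σ Φ) V ≤ C * size R V Z1 Z2 ∧
        tot δ (16 * R) (th2 R) (coef1 Φ) Z1 ≤ C * size R V Z1 Z2 ∧
        (∫ z in (0:ℝ)..16 * R, z ^ 3 * (th2 R z ^ 8 * (cdrift (16 * R) Z1 z - Z2 z) ^ 2))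
          ≤ C * size R V Z1 Z2 ∧
        (∫ z in (0:ℝ)..8 * R, z ^ 3 * (cdrift (8 * R) V z - Z1 z) ^ 2) ≤ C * size R V Z1 Z2 ∧
        (∫ z in (0:ℝ)..8 * R, z ^ 3 * (V z ^ 2 + (z * d1 (8 * R) V z) ^ 2))
          ≤ C * size R V Z1 Z2 ∧
        (∫ z in (0:ℝ)..8 * R, z ^ 3 * (Z1 z ^ 2 + (z * d1 (8 * R) Z1 z) ^ 2))
          ≤ C * size R V Z1 Z2 := by
  obtain ⟨δ₀, hδ₀, hlev⟩ := level_now hCo hFo hIn
  refine ⟨δ₀, hδ₀, fun σ R M δ M' G m hδ0 hB => ?_⟩
  have hR : 0 < R := by linarith [hB.R_one]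
  have hδR : δ ≤ R := hB.δ_le.trans hB.R_one
  obtain ⟨CV, hCV, hV⟩ := hlev M' G δ m (32 * R) hB.δ_pos hδ0 (by linarith) hB.m_pos
  obtain ⟨CZ, hCZ, hZ⟩ := hlev M' G δ m (16 * R) hB.δ_pos hδ0 (by linarith) hB.m_pos
  set P := (1 + (32 * R) ^ 2) ^ 5 with hP
  have hP1 : 1 ≤ P := one_le_pow₀ (by nlinarith)
  refine ⟨3 * P * (CV + CZ + 2), by positivity, fun Φ V Z1 Z2 hS => ?_⟩
  obtain ⟨hNV, hE1, hE2⟩ := size_nonneg hR.le V Z1 Z2
  obtain ⟨sV32, s132, -, -⟩ := hS.mono (Y := 32 * R) (by linarith)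
  obtain ⟨-, s116, s216, -⟩ := hS.mono (Y := 16 * R) (by linarith)
  obtain ⟨a032, -, l32⟩ := hB.coef Φ hS.prof (32 * R) (by linarith)
  obtain ⟨-, a116, l16⟩ := hB.coef Φ hS.prof (16 * R) (by linarith)
  obtain ⟨-, k1, -⟩ := hB.cuts (32 * R) (by linarith)
  obtain ⟨-, -, k2⟩ := hB.cuts (16 * R) (by linarith)
  obtain ⟨z0, z1, z2⟩ := th_zero hR
  have h1 := hV _ _ V Z1 a032 k1 z1 ((th_one hR).2.1 (by linarith)) (fun y hy => (l32 y hy).1)
    sV32 s132.continuousOn (fun y hy => hS.eq1' (by linarith) hy)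
  have h2 := hZ _ _ Z1 Z2 a116 k2 z2 ((th_one hR).2.2 (by linarith)) (fun y hy => (l16 y hy).2)
    s116 s216.continuousOn (fun y hy => hS.eq2' (by linarith) hy)
  have hV4 : wsq 5 4 (th1 R) (32 * R) V ≤ wsq 5 0 (fun _ => 1) (64 * R) V :=
    wsq_le_of_le (by positivity) (by linarith) (cut_smooth _).continuous continuous_const
      (fun _ => zero_le_one) hS.smV.continuousOn
      (fun y _ => by rw [pow_zero]; exact pow_le_one₀ (cut_nonneg _ _) (cut_le_one _ _))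
  have hZ4 : wsq 5 4 (th2 R) (16 * R) Z1 ≤ wsq 5 8 (th1 R) (32 * R) Z1 :=
    wsq_le_of_le (by positivity) (by linarith) (cut_smooth _).continuous (cut_smooth _).continuous
      (cut_nonneg _) s132.continuousOn (fun y _ => th_pow_le hR 4 8 (by norm_num))
  set S := size R V Z1 Z2 with hSdef
  have hS0 : S = wsq 5 0 (fun _ => 1) (64 * R) V + wsq 5 8 (th1 R) (32 * R) Z1
      + wsq 5 8 (th2 R) (16 * R) Z2 := rfl
  set IV := ∫ y in (0:ℝ)..32 * R, th1 R y ^ 6 * rho 5 y * (y * d1 (32 * R) V y) ^ 2 with hIV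
  set IZ := ∫ y in (0:ℝ)..16 * R, th2 R y ^ 6 * rho 5 y * (y * d1 (16 * R) Z1 y) ^ 2 with hIZ
  have i0 : 0 ≤ IV := integral_nonneg' (by positivity) (fun y hy => by
    have := cut_nonneg (16 * R) y
    have := rho_nonneg 5 hy.1.le
    rw [th1_eq]
    positivity)
  have i1 : 0 ≤ IZ := integral_nonneg' (by positivity) (fun y hy => by
    have := cut_nonneg (8 * R) y
    have := rho_nonneg 5 hy.1.le
    rw [th2_eq]
    positivity)
  have t0 : 0 ≤ tot δ (32 * R) (th1 R) (coef0 σ Φ) V :=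
    add_nonneg (diss_nonneg (by positivity) a032 k1.nonneg) (near_nonneg hB.δ_pos.le _)
  have t1 : 0 ≤ tot δ (16 * R) (th2 R) (coef1 Φ) Z1 :=
    add_nonneg (diss_nonneg (by positivity) a116 k2.nonneg) (near_nonneg hB.δ_pos.le _)
  have hbV : CV * (wsq 5 4 (th1 R) (32 * R) V + wsq 5 8 (th1 R) (32 * R) Z1) ≤ CV * S := by
    gcongr
    rw [hS0]
    linarith
  have hbZ : CZ * (wsq 5 4 (th2 R) (16 * R) Z1 + wsq 5 8 (th2 R) (16 * R) Z2) ≤ CZ * S := by
    gcongr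
    rw [hS0]
    linarith
  have hS1 : 0 ≤ S := by rw [hS0]; positivity
  obtain ⟨sV8, -, -, -⟩ := hS.mono (Y := 8 * R) (by linarith)
  have I3 := drift_l2 (B := 32 * R) (by positivity) (by linarith) k2 s116 s216.continuousOn
  have I4 := drift_l2 (B := 32 * R) (by positivity) le_rfl k1 sV32 s132.continuousOn
  have I4' := drift_l2_restrict (X := 8 * R) (by positivity) (by linarith : 8 * R ≤ 32 * R) k1
    (fun z hz => (th_one hR).2.1 (by linarith)) sV32 s132.continuousOn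
  have I5 := low_l2 (X := 8 * R) (B := 32 * R) (by positivity) (by linarith) le_rfl k1
    (fun z hz => (th_one hR).2.1 (by linarith)) sV32
  have I6 := low_l2 (X := 8 * R) (B := 32 * R) (by positivity) (by linarith) (by linarith) k2
    (fun z hz => (th_one hR).2.2 hz) s116
  rw [← hP] at I3 I4 I5 I6
  have nV := mul_nonneg hCV.le hS1
  have nZ := mul_nonneg hCZ.le hS1
  have hK : 0 ≤ CV + CZ + 2 := by linarith
  have hT := fun (x : ℝ) (hx : x ≤ (CV + CZ + 2) * S) => low_arith hP1 hK hS1 hx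
  exact ⟨(hT _ (by linarith)).1, (hT _ (by linarith)).1, I3.trans (hT _ (by linarith)).2.2,
    (I4'.trans I4).trans (hT _ (by linarith)).2.2, I5.trans (hT _ (by linarith)).2.1,
    I6.trans (hT _ (by linarith)).2.1⟩

end Vale.Agent.P264.Inner
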